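import Vale.Agent.P261Z.N.Fam

/-! P261, block N: locally constant functions on finite products. -/

namespace Vale.Agent.P261Z.N

open LocallyConstant Filter Topology

variable {X Y G K S : Type} [TopologicalSpace X] [TopologicalSpace Y] [TopologicalSpace G]
  [CommRing K] [CommRing S]

namespace Pd

variable (X Y K) in
/-- functions of two variables -/
noncomputable def unc : LocallyConstant X (LocallyConstant Y K) →+* LocallyConstant (X × Y) K where
  toFun F := ⟨fun z => F z.1 z.2, (IsLocallyConstant.iff_eventually_eq _).2 fun z => by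
    filter_upwards [continuous_fst.continuousAt.eventually (F.isLocallyConstant.eventually_eq z.1),
      continuous_snd.continuousAt.eventually ((F z.1).isLocallyConstant.eventually_eq z.2)]
      with w h1 h2
    exact (congrArg (fun f : LocallyConstant Y K => f w.2) h1).trans h2⟩
  map_one' := rfl
  map_mul' _ _ := rfl
  map_zero' := rfl
  map_add' _ _ := rfl

theorem unc_bij [CompactSpace Y] : Function.Bijective (unc X Y K) := by
  refine ⟨fun F F' h => LocallyConstant.ext fun x => LocallyConstant.ext fun y =>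
    DFunLike.congr_fun h (x, y), fun f => ⟨⟨fun x => f.comap ⟨Prod.mk x, by fun_prop⟩,
      (IsLocallyConstant.iff_eventually_eq _).2 fun x => ?_⟩, rfl⟩⟩
  have h := isCompact_univ.eventually_forall_of_forall_eventually (x₀ := x)
    (P := fun x' y => f (x', y) = f (x, y)) fun y _ => by
      have h1 : ContinuousAt (fun z : X × Y => (x, z.2)) (x, y) := by fun_prop
      filter_upwards [f.isLocallyConstant.eventually_eq (x, y),
        h1.eventually (f.isLocallyConstant.eventually_eq (x, y))] with w h2 h3
      exact Eq.trans h2 h3.symm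
  filter_upwards [h] with x' hx
  exact LocallyConstant.ext fun y => hx y trivial

theorem two [CompactSpace X] [CompactSpace Y] (θ : LocallyConstant X K →+* S)
    (θ' : LocallyConstant Y K →+* S) (h : ∀ b, θ (const X b) = θ' (const Y b)) :
    ∃ Θ : LocallyConstant (X × Y) K →+* S, (∀ f, Θ (f.comap ContinuousMap.fst) = θ f) ∧
      ∀ f, Θ (f.comap ContinuousMap.snd) = θ' f := by
  obtain ⟨η, h1, h2⟩ := lc_ex (T := X) constRingHom θ' θ h
  let e := RingEquiv.ofBijective _ (unc_bij (X := X) (Y := Y) (K := K))
  exact ⟨η.comp e.symm.toRingHom, fun f => (congrArg η (e.symm_apply_eq.2 rfl)).trans (h2 f),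
    fun f => (congrArg η (e.symm_apply_eq.2 rfl)).trans (h1 f)⟩

theorem two_ext [CompactSpace X] [CompactSpace Y] {Θ Θ' : LocallyConstant (X × Y) K →+* S}
    (h1 : ∀ f : LocallyConstant X K, Θ (f.comap ContinuousMap.fst) = Θ' (f.comap ContinuousMap.fst))
    (h2 : ∀ f : LocallyConstant Y K,
      Θ (f.comap ContinuousMap.snd) = Θ' (f.comap ContinuousMap.snd)) : Θ = Θ' := by
  have h := lc_ext (T := X) constRingHom (θ := Θ.comp (unc X Y K)) (θ' := Θ'.comp (unc X Y K)) h2 h1
  refine RingHom.ext fun f => ?_
  obtain ⟨F, rfl⟩ := unc_bij.2 f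
  exact DFunLike.congr_fun h F

theorem ext_of {Θ Θ' : LocallyConstant Y K →+* S} (c : C(X, Y)) (c' : C(Y, X))
    (hc : ∀ y, c (c' y) = y) (h : Θ.comp (comapRingHom c') = Θ'.comp (comapRingHom c')) :
    Θ = Θ' := RingHom.ext fun f => by
  have e : f = (f.comap c).comap c' := LocallyConstant.ext fun y => congrArg f (hc y).symm
  rw [e]
  exact DFunLike.congr_fun h _

end Pd

open Pd

/-- the projections -/
def pr {I : Type} (j : I) : C(I → G, G) := ⟨fun g => g j, continuous_apply j⟩

variable [CompactSpace G]

theorem lc_prod {I : Type} [Finite I] (κ : K →+* S) (θ : I → LocallyConstant G K →+* S)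
    (h : ∀ j b, θ j (const G b) = κ b) : ∃ Θ : LocallyConstant (I → G) K →+* S,
      (∀ b, Θ (const _ b) = κ b) ∧ ∀ j f, Θ (f.comap (pr j)) = θ j f := by
  induction I using Finite.induction_empty_option with
  | of_equiv e ih =>
    obtain ⟨Θ, h1, h2⟩ := ih (fun j => θ (e j)) fun j => h _
    exact ⟨Θ.comp (comapRingHom ⟨fun g j => g (e.symm j), by fun_prop⟩), h1, fun j f =>
      (h2 (e.symm j) f).trans (by rw [e.apply_symm_apply])⟩
  | h_empty => exact ⟨κ.comp (evalRingHom default), fun _ => rfl, fun j => j.elim⟩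
  | h_option ih =>
    obtain ⟨Θ, h1, h2⟩ := ih (fun j => θ (some j)) fun j => h _
    obtain ⟨η, h3, h4⟩ := two (θ none) Θ fun b => (h _ b).trans (h1 b).symm
    refine ⟨η.comp (comapRingHom ⟨fun z o => o.elim z.1 z.2,
      continuous_pi fun o => by cases o <;> simp <;> fun_prop⟩),
      fun b => (h3 (const G b)).trans (h _ b), ?_⟩
    rintro (_ | j) f
    exacts [h3 f, (h4 (f.comap (pr j))).trans (h2 j f)]

theorem lc_prod_ext {I : Type} [Finite I] {Θ Θ' : LocallyConstant (I → G) K →+* S}
    (h1 : ∀ b, Θ (const _ b) = Θ' (const _ b))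
    (h2 : ∀ j (f : LocallyConstant G K), Θ (f.comap (pr j)) = Θ' (f.comap (pr j))) : Θ = Θ' := by
  induction I using Finite.induction_empty_option with
  | of_equiv e ih =>
    exact ext_of ⟨fun g j => g (e.symm j), by fun_prop⟩ ⟨fun g j => g (e j), by fun_prop⟩
      (fun g => funext fun j => by simp) (ih h1 fun j f => h2 (e j) f)
  | h_empty =>
    refine RingHom.ext fun f => ?_
    have e : f = const _ (f default) :=
      LocallyConstant.ext fun y => congrArg f (Subsingleton.elim _ _)
    rw [e, h1]
  | @h_option α _ ih =>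
    refine ext_of (X := G × (α → G)) ⟨fun z o => o.elim z.1 z.2,
      continuous_pi fun o => by cases o <;> simp <;> fun_prop⟩
      ⟨fun g => (g none, fun j => g (some j)), by fun_prop⟩
      (fun g => funext fun o => by cases o <;> rfl) (two_ext (h2 none) fun f => ?_)
    exact DFunLike.congr_fun (ih
      (Θ := Θ.comp (comapRingHom ⟨fun g j => g (some j), by fun_prop⟩))
      (Θ' := Θ'.comp (comapRingHom ⟨fun g j => g (some j), by fun_prop⟩)) h1
      fun j f => h2 (some j) f) f

end Vale.Agent.P261Z.N
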