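import Vale.Agent.P261Z.N.Sk
import Vale.Agent.P261Z.W.Witt

/-! P261, block N1: logarithms, the `p`-series. -/

set_option linter.all false

namespace Vale.Agent.P261Z.N.Lg

open Vale.Agent.P217 Vale.Agent.P251.F Vale.Agent.P257.H80 _root_.P261

variable (p : ℕ) [hp : Fact p.Prime]

theorem ell_int (k : ℕ) : ∃ z : MvPolynomial ℕ ℤ,
    (p : MvPolynomial ℕ ℚ) ^ k * ell p k = hzI z := by
  induction k using Nat.strong_induction_on with
  | _ k ih =>
    rcases k with _ | k
    · exact ⟨1, by rw [ell_zero, pow_zero, one_mul, map_one]⟩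
    · choose! z hz using ih
      refine ⟨∑ i ∈ Finset.range (k + 1), (p : MvPolynomial ℕ ℤ) ^ (k - i) * z i *
        MvPolynomial.X (k - i) ^ p ^ i, ?_⟩
      have h1 : (p : MvPolynomial ℕ ℚ) * MvPolynomial.C (1 / (p : ℚ)) = 1 := by
        rw [← map_natCast (MvPolynomial.C : ℚ →+* MvPolynomial ℕ ℚ), ← map_mul, mul_one_div_cancel,
          map_one]
        exact_mod_cast hp.out.ne_zero
      rw [ell_succ, pow_succ, mul_assoc, ← mul_assoc (p : MvPolynomial ℕ ℚ), h1, one_mul, map_sum,
        Finset.mul_sum]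
      refine Finset.sum_congr rfl fun i hi => ?_
      have hi' : i < k + 1 := Finset.mem_range.1 hi
      rw [map_mul, map_mul, map_pow, map_pow, map_natCast, ← hz i hi', MvPolynomial.map_X]
      rw [show (p : MvPolynomial ℕ ℚ) ^ k = p ^ (k - i) * p ^ i by
        rw [← pow_add]; congr 1; omega]
      ring

section

variable {A K : Type} [CommRing A] [CommRing K] (ι : A →+* K) (ψ : ℚ →+* K) (a : ℕ → A)

/-- the specialisation -/
noncomputable def sp : MvPolynomial ℕ ℚ →+* K := MvPolynomial.eval₂Hom ψ fun i => ι (a i)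

/-- the logarithm -/
noncomputable def lg : PowerSeries K := PowerSeries.map (sp ι ψ a) (hazLog p)

theorem sp_hzI (z : MvPolynomial ℕ ℤ) :
    sp ι ψ a (hzI z) = ι (MvPolynomial.eval₂Hom (Int.castRingHom A) a z) := by
  have : (sp ι ψ a).comp hzI = ι.comp (MvPolynomial.eval₂Hom (Int.castRingHom A) a) := by
    refine MvPolynomial.ringHom_ext (fun r => ?_) fun i => ?_
    · simp
    · simp [sp]
  exact RingHom.congr_fun this z

theorem law_eq : hz p (fun i => ι (a i)) = (hazQ p).map (sp ι ψ a) := by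
  rw [← haz_map, Law.map_map, ← hz_map, hz, Law.map_map]
  congr 1
  exact RingHom.ext fun z => (sp_hzI ι ψ a z).symm

theorem lg_zero : PowerSeries.constantCoeff (lg p ι ψ a) = 0 := by
  rw [lg, ← PowerSeries.coeff_zero_eq_constantCoeff_apply, PowerSeries.coeff_map,
    PowerSeries.coeff_zero_eq_constantCoeff_apply, hazLog_zero, map_zero]

theorem lg_one : PowerSeries.coeff 1 (lg p ι ψ a) = 1 := by
  rw [lg, PowerSeries.coeff_map, hazLog_one, map_one]

theorem isLog : IsLog (hz p fun i => ι (a i)).toFG (lg p ι ψ a) := by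
  rw [law_eq p ι ψ a]
  refine IsLog.map (sp ι ψ a) (F := (hazQ p).toFG) ⟨hazLog_zero p, ?_, hazQ_log p⟩
  rw [hazLog_one]; exact isUnit_one

/-- the logarithm of curves -/
noncomputable def lgc : Cv (hz p fun i => ι (a i)) →+ PowerSeries K where
  toFun z := PowerSeries.subst z.ser (lg p ι ψ a)
  map_zero' := PowerSeries.subst_zero_of_constantCoeff_zero (lg_zero p ι ψ a)
  map_add' x y := (isLog p ι ψ a).subst_add x.cc y.cc

theorem lgc_apply (z : Cv (hz p fun i => ι (a i))) :
    lgc p ι ψ a z = PowerSeries.subst z.ser (lg p ι ψ a) := rfl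

theorem lgc_inj : Function.Injective (lgc p ι ψ a) := fun x y h =>
  Cv.ext (hz_injective _ (lg_zero p ι ψ a) (lg_one p ι ψ a) x.cc y.cc h)

theorem lgc_surj (r : PowerSeries K) (hr : PowerSeries.constantCoeff r = 0) :
    ∃ z, lgc p ι ψ a z = r := by
  obtain ⟨z, hz, e⟩ := hz_surjective _ (lg_zero p ι ψ a) (lg_one p ι ψ a) r hr
  exact ⟨Cv.mk _ z hz, e⟩

theorem coeff_lg_pow (k : ℕ) : PowerSeries.coeff (p ^ k) (lg p ι ψ a) = sp ι ψ a (ell p k) := by
  rw [lg, PowerSeries.coeff_map, hazLog_coeff_pow]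

theorem coeff_lg_ne {m : ℕ} (hm : ∀ k, m ≠ p ^ k) : PowerSeries.coeff m (lg p ι ψ a) = 0 := by
  rw [lg, PowerSeries.coeff_map, hazLog_coeff_of_ne p hm, map_zero]

theorem sp_ell_int (k : ℕ) : ∃ z : A, (p : K) ^ k * sp ι ψ a (ell p k) = ι z := by
  obtain ⟨z, hz⟩ := ell_int p k
  refine ⟨MvPolynomial.eval₂Hom (Int.castRingHom A) a z, ?_⟩
  rw [← sp_hzI ι ψ a z, ← hz, map_mul, map_pow, map_natCast]

omit hp in
theorem coeff_psubst {L : Type} [CommRing L] (g : PowerSeries L) {z : PowerSeries L}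
    (hz : PowerSeries.constantCoeff z = 0) (d : ℕ) :
    PowerSeries.coeff d (PowerSeries.subst z g : PowerSeries L) =
      ∑ m ∈ Finset.range (d + 1), PowerSeries.coeff m g * PowerSeries.coeff d (z ^ m) :=
  hz_coeff_subst g hz (Finsupp.single () d) (by simp)

/-- the logarithm of the curve `b x ^ (p ^ i)` -/
theorem coeff_lgc_mon (b : K) (i d : ℕ) :
    PowerSeries.coeff d (lgc p ι ψ a (mon p _ b i (xx _))) =
      if p ^ i ∣ d then PowerSeries.coeff (d / p ^ i) (lg p ι ψ a) * b ^ (d / p ^ i) else 0 := by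
  have h0 : 0 < p ^ i := pow_pos hp.out.pos i
  rw [lgc_apply, mon_xx_ser, coeff_psubst _ (cc_mon b h0.ne')]
  simp only [mul_pow, ← pow_mul, ← map_pow, PowerSeries.coeff_C_mul, PowerSeries.coeff_X_pow]
  split_ifs with h
  · obtain ⟨e, rfl⟩ := h
    rw [Nat.mul_div_cancel_left _ h0, Finset.sum_eq_single e]
    · simp
    · intro m _ hm
      rw [if_neg, mul_zero, mul_zero]
      exact fun h => hm (Nat.eq_of_mul_eq_mul_left h0 h).symm
    · intro h
      exact absurd (Finset.mem_range.2 (Nat.lt_succ_of_le (Nat.le_mul_of_pos_left e h0))) h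
  · refine Finset.sum_eq_zero fun m _ => ?_
    rw [if_neg, mul_zero, mul_zero]
    rintro rfl
    exact h (dvd_mul_right _ _)

/-- the elements of `p A` -/
def PA (x : K) : Prop := ∃ y : A, x = ι (p * y)

omit hp in
theorem PA.zero : PA p ι 0 := ⟨0, by simp⟩

omit hp in
theorem PA.add {x y : K} (hx : PA p ι x) (hy : PA p ι y) : PA p ι (x + y) := by
  obtain ⟨x, rfl⟩ := hx
  obtain ⟨y, rfl⟩ := hy
  exact ⟨x + y, by rw [mul_add, map_add]⟩

omit hp in
theorem PA.sub {x y : K} (hx : PA p ι x) (hy : PA p ι y) : PA p ι (x - y) := by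
  obtain ⟨x, rfl⟩ := hx
  obtain ⟨y, rfl⟩ := hy
  exact ⟨x - y, by rw [mul_sub, map_sub]⟩

theorem pa_lg (y : PowerSeries A) (hy : PowerSeries.constantCoeff y = 0) (d : ℕ) :
    PA p ι (PowerSeries.coeff d (PowerSeries.subst (PowerSeries.map ι (p * y)) (lg p ι ψ a) :
      PowerSeries K)) := by
  have h0 : PowerSeries.constantCoeff (PowerSeries.map ι (p * y)) = 0 := by
    rw [← PowerSeries.coeff_zero_eq_constantCoeff_apply, PowerSeries.coeff_map,
      PowerSeries.coeff_zero_eq_constantCoeff_apply, map_mul, hy, mul_zero, map_zero]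
  rw [coeff_psubst _ h0]
  refine Finset.sum_induction _ _ (fun _ _ => PA.add p ι) (PA.zero p ι) fun m _ => ?_
  by_cases hm : ∃ k, m = p ^ k
  · obtain ⟨k, rfl⟩ := hm
    obtain ⟨z, hz⟩ := sp_ell_int p ι ψ a k
    obtain ⟨e, he⟩ := Nat.exists_eq_add_of_lt (Nat.lt_pow_self (n := k) hp.out.one_lt)
    refine ⟨z * p ^ e * PowerSeries.coeff d (y ^ p ^ k), ?_⟩
    rw [coeff_lg_pow, ← map_pow, PowerSeries.coeff_map, mul_pow,
      ← map_natCast (PowerSeries.C : A →+* PowerSeries A), ← map_pow, PowerSeries.coeff_C_mul]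
    simp only [map_mul, map_pow, map_natCast, ← hz]
    rw [show (p : K) ^ p ^ k = p ^ k * p ^ e * p by rw [he, pow_succ, pow_add]]
    ring
  · rw [coeff_lg_ne p ι ψ a fun k h => hm ⟨k, h⟩, zero_mul]
    exact PA.zero p ι

/-- If the logarithm is divisible by `p` then so is the curve. -/
theorem pa_of_lg (z : PowerSeries K) (hz : PowerSeries.constantCoeff z = 0) (D : ℕ)
    (h : ∀ d < D, PA p ι (PowerSeries.coeff d (PowerSeries.subst z (lg p ι ψ a) :
      PowerSeries K))) : ∀ d < D, PA p ι (PowerSeries.coeff d z) := by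
  intro d
  induction d using Nat.strong_induction_on with
  | _ d ih =>
    intro hd
    rcases Nat.eq_zero_or_pos d with rfl | hd0
    · rw [PowerSeries.coeff_zero_eq_constantCoeff_apply, hz]
      exact PA.zero p ι
    have ih' : ∀ e, ∃ y : A, e < d → PowerSeries.coeff e z = ι (p * y) := fun e => by
      by_cases he : e < d
      · obtain ⟨y, hy⟩ := ih e he (he.trans hd)
        exact ⟨y, fun _ => hy⟩
      · exact ⟨0, fun h => absurd h he⟩
    choose y hy using ih'
    let Y : PowerSeries A := PowerSeries.mk fun e => if e < d ∧ e ≠ 0 then y e else 0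
    have hY : PowerSeries.constantCoeff Y = 0 := by
      rw [← PowerSeries.coeff_zero_eq_constantCoeff_apply, PowerSeries.coeff_mk, if_neg (by simp)]
    set z' := PowerSeries.map ι (p * Y) with hz'
    have hc : ∀ e, PowerSeries.coeff e z' = if e < d then PowerSeries.coeff e z else 0 := by
      intro e
      rw [hz', PowerSeries.coeff_map, ← map_natCast (PowerSeries.C : A →+* PowerSeries A),
        PowerSeries.coeff_C_mul, PowerSeries.coeff_mk]
      by_cases he : e < d
      · rcases Nat.eq_zero_or_pos e with rfl | h0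
        · rw [if_neg (by simp), if_pos he, PowerSeries.coeff_zero_eq_constantCoeff_apply, hz]
          simp
        · rw [if_pos ⟨he, h0.ne'⟩, if_pos he, hy e he]
      · rw [if_neg (fun h => he h.1), if_neg he]
        simp
    have hz0 : PowerSeries.constantCoeff z' = 0 := by
      rw [← PowerSeries.coeff_zero_eq_constantCoeff_apply, hc, if_pos hd0,
        PowerSeries.coeff_zero_eq_constantCoeff_apply, hz]
    have hl : lg p ι ψ a - PowerSeries.X ∈ ordI Unit K 2 := by
      rw [mem_ordI_unit]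
      intro i hi
      interval_cases i
      · rw [map_sub, PowerSeries.coeff_zero_eq_constantCoeff_apply, lg_zero]; simp
      · rw [map_sub, lg_one]; simp
    obtain ⟨d, rfl⟩ : ∃ e, d = e + 1 := ⟨d - 1, by omega⟩
    have h1 : z - z' ∈ ordI Unit K (d + 1) := by
      rw [mem_ordI_unit]
      intro i hi
      rw [map_sub, hc, if_pos hi, sub_self]
    have h2 := subst_sub_subst_mem_ordI (a := fun _ : Unit => z) (b := fun _ : Unit => z')
      (fun _ => mem_ordI_one.2 hz) (fun _ => mem_ordI_one.2 hz0) (fun _ => h1) hl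
    have h3 := mem_ordI_unit.1 h2 (d + 1) (by omega)
    change PowerSeries.coeff (d + 1) ((PowerSeries.subst z (lg p ι ψ a - PowerSeries.X) :
      PowerSeries K) - PowerSeries.subst z' (lg p ι ψ a - PowerSeries.X)) = 0 at h3
    rw [PowerSeries.subst_sub (hasSubst_of_cc hz), PowerSeries.subst_sub (hasSubst_of_cc hz0),
      PowerSeries.subst_X (hasSubst_of_cc hz), PowerSeries.subst_X (hasSubst_of_cc hz0),
      map_sub, map_sub, map_sub, hc, if_neg (lt_irrefl _)] at h3
    have h4 := PA.sub p ι (h (d + 1) hd) (pa_lg p ι ψ a Y hY (d + 1))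
    rw [← hz'] at h4
    convert h4 using 1
    linear_combination -h3

/-- the functional equation -/
theorem lg_fe (N : ℕ) (ha : ∀ i, N ≤ i → a i = 0) :
    p • lgc p ι ψ a (xx _) = PowerSeries.C (p : K) * PowerSeries.X +
      ∑ i ∈ Finset.range N, lgc p ι ψ a (mon p _ (ι (a i)) (i + 1) (xx _)) := by
  have hx : lgc p ι ψ a (xx _) = lg p ι ψ a := PowerSeries.X_subst _
  ext d
  rw [hx, map_nsmul, map_add, map_sum, PowerSeries.coeff_C_mul, PowerSeries.coeff_X]
  simp only [coeff_lgc_mon]
  by_cases hd : ∃ k, d = p ^ k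
  · obtain ⟨k, rfl⟩ := hd
    rcases k with _ | k
    · rw [pow_zero, lg_one, if_pos rfl, Finset.sum_eq_zero, add_zero, nsmul_eq_mul]
      intro i _
      rw [if_neg]
      intro h
      exact (Nat.one_lt_pow (Nat.succ_ne_zero i) hp.out.one_lt).ne' (Nat.dvd_one.1 h)
    · have h1 : (p : K) * ψ (1 / (p : ℚ)) = 1 := by
        rw [← map_natCast ψ, ← map_mul, mul_one_div_cancel, map_one]
        exact_mod_cast hp.out.ne_zero
      rw [if_neg (Nat.one_lt_pow (Nat.succ_ne_zero k) hp.out.one_lt).ne', mul_zero, zero_add,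
        coeff_lg_pow, ell_succ, nsmul_eq_mul, map_mul, sp, MvPolynomial.eval₂Hom_C, ← mul_assoc,
        h1, one_mul, map_sum, ← Finset.sum_range_reflect]
      let f : ℕ → K := fun i => if i < k + 1 then sp ι ψ a (ell p (k - i)) * ι (a i) ^ p ^ (k - i)
        else 0
      have e1 : ∀ i, (if p ^ (i + 1) ∣ p ^ (k + 1) then
          PowerSeries.coeff (p ^ (k + 1) / p ^ (i + 1)) (lg p ι ψ a) *
            ι (a i) ^ (p ^ (k + 1) / p ^ (i + 1)) else 0) = f i := by
        intro i
        simp only [f, Nat.pow_dvd_pow_iff_le_right hp.out.one_lt]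
        by_cases hi : i < k + 1
        · rw [if_pos (by omega), if_pos hi, Nat.pow_div (by omega) hp.out.pos,
            show k + 1 - (i + 1) = k - i by omega, coeff_lg_pow]
        · rw [if_neg (by omega), if_neg hi]
      simp only [e1]
      trans ∑ i ∈ Finset.range (k + 1), f i
      · refine Finset.sum_congr rfl fun i hi => ?_
        have hi' := Finset.mem_range.1 hi
        simp only [f]
        rw [if_pos hi', map_mul, map_pow, MvPolynomial.eval₂Hom_X',
          show k + 1 - 1 - i = k - i by omega, show k - (k - i) = i by omega]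
        rfl
      · trans ∑ i ∈ Finset.range (max N (k + 1)), f i
        · refine Finset.sum_subset (Finset.range_mono (le_max_right _ _)) fun i _ hi => ?_
          exact if_neg fun h => hi (Finset.mem_range.2 h)
        · refine (Finset.sum_subset (Finset.range_mono (le_max_left _ _)) fun i _ hi => ?_).symm
          simp only [f]
          rw [ha i (not_lt.1 fun h => hi (Finset.mem_range.2 h)), map_zero,
            zero_pow (pow_ne_zero _ hp.out.ne_zero), mul_zero, ite_self]
  · have h1 : d ≠ 1 := fun h => hd ⟨0, by rw [h, pow_zero]⟩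
    rw [coeff_lg_ne p ι ψ a fun k h => hd ⟨k, h⟩, if_neg h1, smul_zero, mul_zero, zero_add]
    refine (Finset.sum_eq_zero fun i _ => ?_).symm
    split_ifs with h
    · rw [coeff_lg_ne, zero_mul]
      intro k hk
      exact hd ⟨i + 1 + k, by rw [pow_add, ← hk, Nat.mul_div_cancel' h]⟩
    · rfl

end

end Vale.Agent.P261Z.N.Lg

namespace Vale.Agent.P261Z.N

open Vale.Agent.P217 Vale.Agent.P251.F Vale.Agent.P257.H80 _root_.P261 Lg

variable (p : ℕ) [hp : Fact p.Prime]

theorem pser : PSER p := by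
  intro S _ hS v N hv
  let a : ℕ → MvPolynomial ℕ ℤ := fun i => if i < N then MvPolynomial.X i else 0
  have ha : ∀ i, N ≤ i → a i = 0 := fun i hi => if_neg (not_lt.2 hi)
  let φ : MvPolynomial ℕ ℤ →+* S := MvPolynomial.eval₂Hom (Int.castRingHom S) v
  have hφ : ∀ i, φ (a i) = v i := by
    intro i
    simp only [a]
    split_ifs with h
    · exact MvPolynomial.eval₂Hom_X' _ _ _
    · rw [map_zero, hv i (not_lt.1 h)]
  have e1 : (hz p a).map φ = hz p v := by rw [hz_map]; exact congrArg _ (funext hφ)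
  let E : Cv (hz p a) := p • xx _ - ∑ i ∈ Finset.range N, mon p _ (a i) (i + 1) (xx _)
  have h1 : lgc p hzI MvPolynomial.C a (zmap hzI (hz_map p hzI a) E) =
      PowerSeries.C (p : MvPolynomial ℕ ℚ) * PowerSeries.X := by
    simp only [E, map_sub, map_nsmul, map_sum, zmap_mon, zmap_xx]
    rw [lg_fe p hzI MvPolynomial.C a N ha, add_sub_cancel_right]
  have h2 : ∀ d, PA p hzI (PowerSeries.coeff d (zmap hzI (hz_map p hzI a) E).ser) := by
    intro d
    refine pa_of_lg p hzI MvPolynomial.C a _ (Cv.cc _) (d + 1) (fun e _ => ?_) d d.lt_succ_self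
    rw [← lgc_apply, h1, PowerSeries.coeff_C_mul, PowerSeries.coeff_X]
    split_ifs
    · exact ⟨1, by simp⟩
    · exact ⟨0, by simp⟩
  have h3 : zmap φ e1 E = 0 := by
    apply Cv.ext
    ext d
    obtain ⟨y, hy⟩ := h2 d
    rw [zmap_ser, PowerSeries.coeff_map] at hy
    rw [zmap_ser, PowerSeries.coeff_map, hzI_injective hy, map_mul, map_natCast, hS, zero_mul]
    rfl
  simp only [E, map_sub, map_nsmul, map_sum, zmap_mon, zmap_xx, hφ] at h3
  exact sub_eq_zero.1 h3

theorem uniq : UNIQ p := by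
  intro S T _ _ _ hT F c c' h
  have key : ∀ d w, Cg d (c w) (c' w) := by
    intro d
    induction d with
    | zero => intro w i hi; omega
    | succ d ih =>
      intro w
      rw [← tm_add_dv w, map_add, map_add, ← nsmul_eq_mul, map_nsmul, map_nsmul, h]
      exact (Cg.refl _ _).add ((ih _).p_smul p hT)
  exact AddMonoidHom.ext fun w => Cg.eq fun d => key d w

end Vale.Agent.P261Z.N
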