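import Vale.Agent.P261Z.N.Sk
import Vale.Agent.P261Z.Ev

/-! P261, block N2: the action of the group on the ring of power series. Statements. -/

set_option linter.all false

namespace Vale.Agent.P261Z.N

open Vale.Agent.P217 Vale.Agent.P251.F Vale.Agent.P257.H80 MvPowerSeries

/-- a family indexed by `h, …, h + c - 1` -/
def exh {A : Type} [Zero A] (h : ℕ) {c : ℕ} (x : Fin c → A) (i : ℕ) : A :=
  if hi : h ≤ i ∧ i - h < c then x ⟨i - h, hi.2⟩ else 0

theorem exh_add {A : Type} [Zero A] (h : ℕ) {c : ℕ} (x : Fin c → A) (j : Fin c) :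
    exh h x (h + j) = x j := by
  have : h ≤ h + j ∧ h + j - h < c := ⟨by omega, by omega⟩
  rw [exh, dif_pos this]
  congr 1
  exact Fin.ext (by simp)

theorem exh_lt {A : Type} [Zero A] {h c : ℕ} (x : Fin c → A) {i : ℕ} (hi : i < h) :
    exh h x i = 0 := dif_neg (by omega)

theorem exh_map {A B : Type} [Zero A] [Zero B] (f : A → B) (hf : f 0 = 0) (h : ℕ) {c : ℕ}
    (x : Fin c → A) (i : ℕ) : f (exh h x i) = exh h (fun j => f (x j)) i := by
  unfold exh
  split_ifs
  · rfl
  · exact hf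

variable (p : ℕ) [hp : Fact p.Prime]

/-- the law with `v (h + j) = x j`, of height at least `h` and at most `h + c` -/
noncomputable def Fx (h : ℕ) {c : ℕ} {S : Type} [CommRing S] (x : Fin c → S) : Law S :=
  hzn p (h + c) (exh h x)

theorem Fx_map (h : ℕ) {c : ℕ} {S T : Type} [CommRing S] [CommRing T] (φ : S →+* T)
    (x : Fin c → S) : (Fx p h x).map φ = Fx p h fun j => φ (x j) := by
  rw [Fx, hzn_map, Fx]
  exact congrArg _ (funext fun i => exh_map φ (map_zero φ) h x i)

/-- the base ring -/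
abbrev RR (c : ℕ) (K : Type) : Type := MvPowerSeries (Fin c) K

/-- the law over the base ring -/
noncomputable def FR (h c : ℕ) (K : Type) [Field K] : Law (RR c K) := Fx p h X

/-- continuous actions on the base ring which lift to the law -/
structure RG (h c : ℕ) (G : Type) [Group G] [TopologicalSpace G] (K : Type) [Field K] where
  /-- the action -/
  phi : G →* (RR c K →ₐ[K] RR c K)
  /-- the isomorphism `phi g F → F` -/
  ser : G → InvSeries (RR c K)
  law : ∀ g, ser g • (FR p h c K).map (phi g : RR c K →+* RR c K) = FR p h c K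
  ser_one : ser 1 = 1
  ser_mul : ∀ g g', ser (g * g') = ser g * InvSeries.map (phi g : RR c K →+* RR c K) (ser g')
  phi_X : ∀ g i, constantCoeff (phi g (X i)) = 0
  cont_phi : ∀ r d, IsLocallyConstant fun g => coeff d (phi g r)
  cont_ser : ∀ i d, IsLocallyConstant fun g => coeff d ((ser g).c i)

variable {p}

namespace RG

variable {h c : ℕ} {G : Type} [Group G] [TopologicalSpace G] {K : Type} [Field K]
  (A : RG p h c G K)

/-- the action by ring homomorphisms -/
noncomputable abbrev ph (g : G) : RR c K →+* RR c K := A.phi g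

/-- the leading coefficient -/
noncomputable def t (g : G) : (RR c K)ˣ := (A.ser g).lead

theorem t_val (g : G) : (A.t g : RR c K) = (A.ser g).c 0 := rfl

theorem ph_one : A.ph 1 = RingHom.id _ := by
  rw [ph, map_one]; rfl

theorem ph_mul (g g' : G) : A.ph (g * g') = (A.ph g).comp (A.ph g') := by
  rw [ph, map_mul]; rfl

theorem t_one : A.t 1 = 1 := Units.ext (by rw [t_val, A.ser_one, InvSeries.c_zero_one]; rfl)

theorem t_mul (g g' : G) : (A.t (g * g') : RR c K) = A.t g * A.phi g (A.t g') := by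
  rw [t_val, A.ser_mul, InvSeries.c_zero_mul, InvSeries.c_map]
  rfl

/-- the twisted action -/
noncomputable def tw : TwAct G (RR c K) where
  phi := A.ph
  a := A.t
  phi_one := A.ph_one
  phi_mul := A.ph_mul
  a_one := A.t_one
  a_mul g g' := Units.ext (A.t_mul g g')

end RG

/-- The action lifts the automorphisms of the law over the residue field. -/
def IsT {n h c : ℕ} {k K : Type} [Field k] [Field K] (D : LTD p n k) (ι : k →+* K)
    (A : RG p h c D.GG K) : Prop :=
  ∀ g i, constantCoeff ((A.ser g).c i) = ι (g.cf (i + 1))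

variable (p)

/-- uniqueness of deformations over separated rings -/
def UNIC : Prop := ∀ (n : ℕ) (k : Type) [Field k], n ≠ 0 → Nat.card k = p ^ n →
  ∀ (S : Type) [CommRing S] (J : Ideal S) [IsHausdorff J S] (_κ : k →+* S) (v v' : ℕ → S)
    (g g' : InvSeries S), (∀ i, 1 ≤ i → i < n → v i ∈ J) → (∀ i, 1 ≤ i → i < n → v' i ∈ J) →
    g • hzn p n v = g' • hzn p n v' → (∀ i, g.c i - g'.c i ∈ J.radical) →
    (∀ i, 1 ≤ i → i < n → v i = v' i) ∧ g = g'

/-- existence of the action -/
def RGEX : Prop := ∀ (n : ℕ) (k : Type) [Field k] (D : LTD p n k), IsHz p D →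
  ∀ (h c : ℕ), 1 ≤ h → h + c = n → ∀ (K : Type) [Field K] (ι : k →+* K),
    ∃ A : RG p h c D.GG K, IsT D ι A

/-- isomorphisms of deformations are given by the action -/
def ACTC : Prop := ∀ (n : ℕ) (k : Type) [Field k] (D : LTD p n k), IsHz p D →
  ∀ (h c : ℕ), 1 ≤ h → h + c = n → ∀ (K : Type) [Field K] (ι : k →+* K) (A : RG p h c D.GG K),
  IsT D ι A → ∀ (S : Type) [CommRing S] (J : Ideal S) [IsHausdorff J S] (x : RR c K →+* S)
    (y : Fin c → S) (g : InvSeries S) (γ : D.GG), (∀ j, x (X j) ∈ J) → (∀ j, y j ∈ J) →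
    g • Fx p h y = (FR p h c K).map x → (∀ i, g.c i - x (C (ι (γ.cf (i + 1)))) ∈ J.radical) →
    (∀ j, y j = x (A.phi γ (X j))) ∧ g = InvSeries.map x (A.ser γ)

/-- the maps from the rings `E_j` -/
def IsR {n : ℕ} {k K : Type} [Field k] [Field K] (D : LTD p n k) (ι : k →+* K) (h c j : ℕ)
    (r : D.EJ j →+* RR c K ⧸ Ev.IX (Fin c) K ^ (j + 1)) : Prop :=
  (∀ a : k, r (algebraMap k _ a) = Ideal.Quotient.mk _ (C (ι a))) ∧
    ∀ i : Fin (n - 1), r (EE.mk k (n - 1) j (MvPolynomial.X i)) =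
      Ideal.Quotient.mk _ (exh h X (i + 1))

/-- comparison with the action on `E_j` -/
def TREE : Prop := ∀ (n : ℕ) (k : Type) [Field k] (D : LTD p n k), IsHz p D →
  ∀ (h c : ℕ), 1 ≤ h → h + c = n → ∀ (K : Type) [Field K] (ι : k →+* K) (j : ℕ),
  (∃ r, IsR p D ι h c j r) ∧ ∀ r, IsR p D ι h c j r →
    (h = 1 → Function.Surjective ι → Function.Bijective r) ∧
    ∀ A : RG p h c D.GG K, IsT D ι A → ∀ γ : D.GG,
      (∀ e e', r e = Ideal.Quotient.mk _ e' →
        r (phi D j γ e) = Ideal.Quotient.mk _ (A.phi γ e')) ∧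
      ∀ i, r ((ser D j γ).c i) = Ideal.Quotient.mk _ ((A.ser γ).c i)

/-- change of the field and of the height -/
def CHG : Prop := ∀ (n : ℕ) (k : Type) [Field k] (D : LTD p n k), IsHz p D →
  ∀ (h c h' c' : ℕ), 1 ≤ h → h + c = n → 1 ≤ h' → h' + c' = n →
  ∀ (K K' : Type) [Field K] [Field K'] (ι : k →+* K) (ι' : k →+* K') (A : RG p h c D.GG K)
    (A' : RG p h' c' D.GG K'), IsT D ι A → IsT D ι' A' →
  ∀ (l : K →+* K') (f : RR c K →+* RR c' K'), l.comp ι = ι' → (∀ a, f (C a) = C (l a)) →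
    (∀ j : Fin c, f (X j) = exh h' X (h + j)) → h ≤ h' →
    ∀ γ, f.comp (A.ph γ) = (A'.ph γ).comp f ∧ InvSeries.map f (A.ser γ) = A'.ser γ

end Vale.Agent.P261Z.N
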