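import Vale.Agent.P261Z.N.Log

/-! P261, block N1: the addition of the curves `a x`, the curve map. -/

set_option linter.all false

namespace Vale.Agent.P261Z.N.Ca

open Vale.Agent.P217 Vale.Agent.P251.F Vale.Agent.P257.H80 _root_.P261 Lg WittVector

variable (p : ℕ) [hp : Fact p.Prime]

theorem zmap_inj {A K : Type} [CommRing A] [CommRing K] {ι : A →+* K} (hι : Function.Injective ι)
    {F : Law A} {G : Law K} (h : F.map ι = G) : Function.Injective (zmap ι h) := by
  intro x y e
  apply Cv.ext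
  ext d
  apply hι
  rw [← PowerSeries.coeff_map, ← PowerSeries.coeff_map, ← zmap_ser ι h, e, zmap_ser]

theorem exists_cg {A K : Type} [CommRing A] [CommRing K] {ι : A →+* K} (hι : Function.Injective ι)
    {F : Law A} {G : Law K} (h : F.map ι = G) (z : Cv G) (D : ℕ∞)
    (hz : ∀ d : ℕ, d < D → ∃ y, PowerSeries.coeff d z.ser = ι y) :
    ∃ y : Cv F, ∀ d : ℕ, d < D →
      PowerSeries.coeff d z.ser = PowerSeries.coeff d (zmap ι h y).ser := by
  classical
  choose! y hy using hz
  refine ⟨Cv.mk F (PowerSeries.mk fun d => if d = 0 then 0 else y d) ?_, fun d hd => ?_⟩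
  · rw [← PowerSeries.coeff_zero_eq_constantCoeff_apply, PowerSeries.coeff_mk, if_pos rfl]
  · rw [zmap_ser, PowerSeries.coeff_map, Cv.ser_mk, PowerSeries.coeff_mk]
    split_ifs with h0
    · rw [h0, PowerSeries.coeff_zero_eq_constantCoeff_apply, z.cc, map_zero]
    · exact hy d hd

variable {S : Type} [CommRing S] [Pf p S]

theorem isUnit_nat {m : ℕ} (hm : ¬ p ∣ m) : IsUnit (m : WittVector p S) := by
  apply isUnit_of_coeff
  rw [← constantCoeff_apply, map_natCast]
  obtain ⟨a, b, h⟩ := Nat.isCoprime_iff_coprime.2 ((Nat.Prime.coprime_iff_not_dvd hp.out).2 hm)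
  have h1 := congrArg (Int.cast : ℤ → S) h
  push_cast at h1
  rw [(Ch.char : (p : S) = 0), mul_zero, zero_add] at h1
  exact IsUnit.of_mul_eq_one_right _ h1

theorem exists_K : ∃ (K : Type) (_ : CommRing K) (ι : WittVector p S →+* K) (_ : ℚ →+* K),
    Function.Injective ι := by
  let K := Localization.Away (p : WittVector p S)
  have h1 : ∀ m : ℕ, m ≠ 0 → IsUnit (m : K) := by
    intro m hm
    obtain ⟨e, m', h, rfl⟩ := Nat.exists_eq_pow_mul_and_not_dvd hm p hp.out.ne_one
    rw [Nat.cast_mul, Nat.cast_pow]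
    refine IsUnit.mul (IsUnit.pow _ ?_) ?_
    · rw [← map_natCast (algebraMap (WittVector p S) K)]
      exact IsLocalization.Away.algebraMap_isUnit _
    · rw [← map_natCast (algebraMap (WittVector p S) K)]
      exact (isUnit_nat p h).map _
  refine ⟨K, inferInstance, algebraMap _ _, IsLocalization.lift (M := nonZeroDivisors ℤ)
    (g := Int.castRingHom K) ?_, IsLocalization.injective K (M := Submonoid.powers (p : WittVector p S)) ?_⟩
  · rintro ⟨y, hy⟩
    have hy0 : y ≠ 0 := nonZeroDivisors.ne_zero hy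
    have h2 := h1 y.natAbs (Int.natAbs_ne_zero.2 hy0)
    change IsUnit (y : K)
    rcases Int.natAbs_eq y with e | e
    · rw [e, Int.cast_natCast]; exact h2
    · rw [e, Int.cast_neg, Int.cast_natCast]; exact h2.neg
  · rintro _ ⟨k, rfl⟩
    refine mem_nonZeroDivisors_iff_left.2 fun x hx => pow_mul_inj k ?_
    rw [mul_zero]
    exact hx

theorem sg_pow_tm (k : ℕ) (a : S) : (sg p S ^ k) (tm p a) = tm p a ^ p ^ k := by
  induction k with
  | zero => simp
  | succ k ih =>
    rw [pow_succ', RingHom.mul_def, RingHom.comp_apply, ih, map_pow, sg_tm, tm, map_pow,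
      ← pow_mul, pow_succ']

end Vale.Agent.P261Z.N.Ca

namespace Vale.Agent.P261Z.N

open Vale.Agent.P217 Vale.Agent.P251.F Vale.Agent.P257.H80 _root_.P261 Lg Ca WittVector

variable (p : ℕ) [hp : Fact p.Prime]

theorem cart : CART p := by
  intro S _ _ v
  obtain ⟨K, _, ι, ψ, hι⟩ := exists_K p (S := S)
  let a : ℕ → WittVector p S := fun i => tm p (v i)
  let L : WittVector p S →+ PowerSeries K :=
    { toFun := fun w => PowerSeries.mk fun d =>
        PowerSeries.coeff d (lg p ι ψ a) * ι ((sg p S ^ Nat.log p d) w)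
      map_zero' := by ext d; simp
      map_add' := fun x y => by ext d; simp [mul_add] }
  have hL : ∀ w d, PowerSeries.coeff d (L w) =
      PowerSeries.coeff d (lg p ι ψ a) * ι ((sg p S ^ Nat.log p d) w) :=
    fun w d => PowerSeries.coeff_mk d fun d =>
      PowerSeries.coeff d (lg p ι ψ a) * ι ((sg p S ^ Nat.log p d) w)
  have hL0 : ∀ w, PowerSeries.constantCoeff (L w) = 0 := fun w => by
    rw [← PowerSeries.coeff_zero_eq_constantCoeff_apply, hL,
      PowerSeries.coeff_zero_eq_constantCoeff_apply, lg_zero, zero_mul]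
  choose E0 hE0 using fun w => lgc_surj p ι ψ a (L w) (hL0 w)
  let E : WittVector p S →+ Cv (hz p fun i => ι (a i)) := AddMonoidHom.mk' E0 fun x y =>
    lgc_inj p ι ψ a (by rw [map_add, hE0, hE0, hE0, map_add])
  have hE : ∀ w, lgc p ι ψ a (E w) = L w := hE0
  have hEt : ∀ b, E (tm p b) = zmap ι (hz_map p ι a) (mon p _ (tm p b) 0 (xx _)) := by
    intro b
    apply lgc_inj p ι ψ a
    ext d
    rw [hE, hL, zmap_mon, zmap_xx, coeff_lgc_mon, pow_zero, if_pos (one_dvd _), Nat.div_one]
    by_cases hd : ∃ k, d = p ^ k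
    · obtain ⟨k, rfl⟩ := hd
      rw [Nat.log_pow hp.out.one_lt, sg_pow_tm, map_pow]
    · rw [coeff_lg_ne p ι ψ a fun k h => hd ⟨k, h⟩, zero_mul, zero_mul]
  have hint : ∀ w, ∃ y, zmap ι (hz_map p ι a) y = E w := by
    intro w
    have h1 : ∀ D : ℕ, ∃ y, Cg D (E w) (zmap ι (hz_map p ι a) y) := by
      intro D
      have h2 : ∀ d < D, PA p ι (PowerSeries.coeff d (E (p ^ D * dv^[D] w)).ser) := by
        refine pa_of_lg p ι ψ a _ (Cv.cc _) D fun d hd => ?_
        rw [← lgc_apply, hE, hL]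
        by_cases hk : ∃ k, d = p ^ k
        · obtain ⟨k, rfl⟩ := hk
          obtain ⟨z, hz⟩ := sp_ell_int p ι ψ a k
          obtain ⟨e, he⟩ := Nat.exists_eq_add_of_lt
            ((Nat.lt_pow_self (n := k) hp.out.one_lt).trans hd)
          refine ⟨z * p ^ e * (sg p S ^ k) (dv^[D] w), ?_⟩
          rw [Nat.log_pow hp.out.one_lt, coeff_lg_pow]
          simp only [map_mul, map_pow ι, map_natCast, ← hz, map_pow (sg p S ^ k)]
          rw [show (p : K) ^ D = p ^ k * p ^ e * p by rw [he, pow_succ, pow_add]]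
          ring
        · rw [coeff_lg_ne p ι ψ a fun k h => hk ⟨k, h⟩, zero_mul]
          exact PA.zero p ι
      obtain ⟨y, hy⟩ := exists_cg hι (hz_map p ι a) (E (p ^ D * dv^[D] w)) D fun d hd => by
        obtain ⟨y, hy⟩ := h2 d (by exact_mod_cast hd)
        exact ⟨_, hy⟩
      refine ⟨∑ j ∈ Finset.range D, p ^ j • mon p _ (tm p (dg w j)) 0 (xx _) + y, ?_⟩
      conv_lhs => rw [eq_sum_dg w D]
      rw [map_add, map_add, map_sum, map_sum]
      refine Cg.add ?_ fun d hd => hy d (by exact_mod_cast hd)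
      rw [Finset.sum_congr rfl fun j _ => ?_]
      · exact Cg.refl _ _
      · rw [map_nsmul, ← hEt, ← map_nsmul, nsmul_eq_mul, Nat.cast_pow]
    obtain ⟨y, hy⟩ := exists_cg hι (hz_map p ι a) (E w) ⊤ fun d _ => by
      obtain ⟨y, hy⟩ := h1 (d + 1)
      exact ⟨_, (hy d d.lt_succ_self).trans (PowerSeries.coeff_map _ _ _)⟩
    exact ⟨y, Cv.ext (PowerSeries.ext fun d => (hy d (ENat.coe_lt_top d)).symm)⟩
  choose c0 hc0 using hint
  let c1 : WittVector p S →+ Cv (hz p a) := AddMonoidHom.mk' c0 fun x y =>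
    zmap_inj hι (hz_map p ι a) (by rw [map_add, hc0, hc0, hc0, map_add])
  have e1 : (hz p a).map (constantCoeff : WittVector p S →+* S) = hz p v := by
    rw [hz_map]; rfl
  refine ⟨(zmap _ e1).comp c1, fun b => ?_⟩
  have h3 : c1 (teichmuller p b) = mon p _ (tm p b) 0 (xx _) :=
    zmap_inj hι (hz_map p ι a) ((hc0 _).trans (hEt b))
  rw [AddMonoidHom.comp_apply, h3, zmap_mon, zmap_xx]
  rfl

theorem cun : CUN p := by
  intro S _ _ M _ _ n V m hsp T _ hT φ G c c' h1 h1' h2 h2' hm
  have h3 : ∀ i, c (V^[i] m) = c' (V^[i] m) := by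
    intro i
    induction i with
    | zero => exact hm
    | succ i ih => rw [Function.iterate_succ_apply', h2, h2', ih]
  have h4 : ∀ y, c y = c' y → ∀ w : WittVector p S, c (w • y) = c' (w • y) := by
    intro y hy w
    let s : WittVector p S →+ M := (LinearMap.toSpanSingleton _ M y).toAddMonoidHom
    exact DFunLike.congr_fun (uniq p S T hT G (c.comp s) (c'.comp s) fun a => by
      change c (teichmuller p a • y) = c' (teichmuller p a • y)
      rw [h1, h1', hy]) w
  refine AddMonoidHom.ext fun y => ?_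
  obtain ⟨w, rfl⟩ := (Submodule.mem_span_range_iff_exists_fun _).1 (hsp (Submodule.mem_top (x := y)))
  rw [map_sum, map_sum]
  exact Finset.sum_congr rfl fun i _ => h4 _ (h3 i) _

end Vale.Agent.P261Z.N
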