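import Vale.Agent.P261Z.N.Cart

/-! P261, block N1: the curve map. -/

set_option linter.all false

namespace Vale.Agent.P261Z.N

open Vale.Agent.P217 Vale.Agent.P251.F Vale.Agent.P257.H80 _root_.P261 Lg Ca WittVector

variable (p : ℕ) [hp : Fact p.Prime]

namespace Cr

variable {S T : Type} [CommRing S] [CommRing T]

theorem sg_pow_tm' [Pf p S] (k : ℕ) (a : S) : (sg p S ^ k) (tm p a) = tm p (a ^ p ^ k) := by
  rw [sg_pow_tm, tm, tm, map_pow]

theorem mon_swap (F : Law S) (a : S) (i : ℕ) (z : Cv F) :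
    mon p F 1 i (mon p F (a ^ p ^ i) 0 z) = mon p F a 0 (mon p F 1 i z) := by
  rw [mon_mon, mon_mon, one_pow, mul_one, one_mul, add_zero, zero_add]

theorem cv_tm [Pf p S] {F : Law S} {c : WittVector p S →+ Cv F} {z : Cv F}
    (hc : ∀ a, c (tm p a) = mon p F a 0 z) (a : S) (w : WittVector p S) :
    c (tm p a * w) = mon p F a 0 (c w) :=
  DFunLike.congr_fun (uniq p S S Ch.char F (c.comp (AddMonoidHom.mulLeft (tm p a)))
    ((mon p F a 0).comp c) fun b => by
      change c (tm p a * tm p b) = mon p F a 0 (c (tm p b))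
      rw [tm, tm, ← map_mul, hc, hc, mon_mon, pow_zero, pow_one, mul_comm]) w

theorem cart' [Pf p S] {F : Law S} {v : ℕ → S} (h : F = hz p v) :
    ∃ c : WittVector p S →+ Cv F, ∀ a, c (tm p a) = mon p F a 0 (xx F) := by
  subst h
  exact cart p S v

theorem typ_zero (F : Law S) : Typ p F 0 := fun T _ _ φ => ⟨0, fun a => by simp⟩

theorem typ_add {F : Law S} {g g' : Cv F} (h : Typ p F g) (h' : Typ p F g') :
    Typ p F (g + g') := fun T _ _ φ => by
  obtain ⟨c, hc⟩ := h T φ
  obtain ⟨c', hc'⟩ := h' T φ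
  exact ⟨c + c', fun a => by rw [AddMonoidHom.add_apply, hc, hc', map_add, map_add]⟩

theorem typ_ver {F : Law S} {g : Cv F} (h : Typ p F g) (i : ℕ) : Typ p F (mon p F 1 i g) :=
  fun T _ _ φ => by
    obtain ⟨c, hc⟩ := h T φ
    refine ⟨(mon p _ 1 i).comp (c.comp (sg p T ^ i).toAddMonoidHom), fun a => ?_⟩
    change mon p _ 1 i (c ((sg p T ^ i) (tm p a))) = _
    rw [sg_pow_tm', hc, mon_swap, zmap_mon, map_one]

theorem typ_cv [Pf p S] {v : ℕ → S} {c : WittVector p S →+ Cv (hz p v)}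
    (hc : ∀ a, c (tm p a) = mon p _ a 0 (xx _)) (w : WittVector p S) : Typ p _ (c w) :=
  fun T _ _ φ => by
    obtain ⟨c', hc'⟩ := cart' p (hz_map p φ v)
    have h1 : zmap φ rfl (c w) = c' (wm p φ w) :=
      DFunLike.congr_fun (uniq p S T Ch.char _ ((zmap φ rfl).comp c)
        (c'.comp (wm p φ).toAddMonoidHom) fun b => by
          change zmap φ rfl (c (tm p b)) = c' (wm p φ (tm p b))
          rw [map_teichmuller, hc, hc', zmap_mon, zmap_xx]) w
    refine ⟨c'.comp (AddMonoidHom.mulRight (wm p φ w)), fun a => ?_⟩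
    rw [h1]
    exact cv_tm p hc' a _

theorem cv_p [Pf p S] {v : ℕ → S} {c : WittVector p S →+ Cv (hz p v)}
    (hc : ∀ a, c (tm p a) = mon p _ a 0 (xx _)) {N : ℕ} (hv : ∀ i, N ≤ i → v i = 0)
    (w : WittVector p S) : p • c w = ∑ i ∈ Finset.range N,
      mon p _ 1 (i + 1) (c ((sg p S ^ (i + 1)) w * tm p (v i))) := by
  have := DFunLike.congr_fun (uniq p S S Ch.char _ (p • c) (∑ i ∈ Finset.range N,
    (mon p _ 1 (i + 1)).comp (c.comp ((AddMonoidHom.mulRight (tm p (v i))).comp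
      (sg p S ^ (i + 1)).toAddMonoidHom))) fun b => by
        rw [AddMonoidHom.finset_sum_apply]
        change p • c (tm p b) = ∑ i ∈ Finset.range N,
          mon p _ 1 (i + 1) (c ((sg p S ^ (i + 1)) (tm p b) * tm p (v i)))
        rw [hc, ← map_nsmul, pser p S Ch.char v N hv, map_sum]
        refine Finset.sum_congr rfl fun i _ => ?_
        rw [sg_pow_tm', tm, tm, ← map_mul, hc, mon_mon, mon_mon, one_pow, mul_one, mul_comm,
          zero_add, add_zero]) w
  rw [AddMonoidHom.finset_sum_apply] at this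
  exact this

omit hp in
theorem par_zero {n : ℕ} (v : ℕ → S) (i : ℕ) (hi : n ≤ i) : par n v i = 0 := by
  rw [par, if_neg (by omega), if_neg (by omega)]

omit hp in
theorem sum_par {A : Type} [AddCommMonoid A] {n : ℕ} (hn : 1 ≤ n) (v : ℕ → S) (f : S → ℕ → A) :
    ∑ i ∈ Finset.range n, f (par n v i) (i + 1) = f 1 n + ∑ i ∈ Finset.Ico 1 n, f (v i) i := by
  obtain ⟨n, rfl⟩ : ∃ m, n = m + 1 := ⟨n - 1, by omega⟩
  rw [Finset.sum_range_succ, add_comm, Finset.sum_Ico_eq_sum_range, Nat.add_sub_cancel]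
  congr 1
  · rw [par, if_neg (lt_irrefl _), if_pos rfl]
  · refine Finset.sum_congr rfl fun i hi => ?_
    rw [par, if_pos (Nat.succ_lt_succ (Finset.mem_range.1 hi)), add_comm 1 i]

end Cr

open Cr

theorem IsCrv.iter {S : Type} [CommRing S] [Pf p S] {M : Type} [AddCommGroup M]
    [Module (WittVector p S) M] {F : Law S} {V : M →+ M} {c : M →+ Cv F} (h : IsCrv p F V c)
    (i : ℕ) (y : M) : c (V^[i] y) = mon p F 1 i (c y) := by
  induction i with
  | zero => exact (mon_one_zero p F _).symm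
  | succ i ih =>
    rw [Function.iterate_succ_apply', h.ver, ih, mon_mon, one_pow, mul_one, add_comm]

/-- Vectors which are fixed by `V` have trivial curves. -/
theorem IsCrv.etale {S : Type} [CommRing S] [Pf p S] {M : Type} [AddCommGroup M]
    [Module (WittVector p S) M] {F : Law S} {V : M →+ M} {c : M →+ Cv F} (h : IsCrv p F V c)
    {y : M} (hy : V y = y) : c y = 0 := by
  refine Cg.eq fun d => ?_
  have h1 : V^[d] y = y := Function.iterate_fixed hy d
  rw [← h1, h.iter p, cg_iff, Cv.ser_zero, sub_zero, mon_ser, map_one, one_mul]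
  obtain ⟨g, hg⟩ := PowerSeries.X_dvd_iff.2 (c y).cc
  have hs : PowerSeries.HasSubst (PowerSeries.X ^ p ^ d : PowerSeries S) :=
    PowerSeries.HasSubst.X_pow (pow_ne_zero _ hp.out.ne_zero)
  rw [hg, PowerSeries.subst_mul hs, PowerSeries.subst_X hs]
  exact (pow_dvd_pow _ (Nat.lt_pow_self hp.out.one_lt).le).mul_right _

theorem IsCrv.nfr {S : Type} [CommRing S] [Pf p S] {M : Type} [AddCommGroup M]
    [Module (WittVector p S) M] {F : Law S} {V : M →+ M} {c : M →+ Cv F} (h : IsCrv p F V c)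
    {n : ℕ} (hn : 1 ≤ n) (u : ℕ → S) (y : M) : c (nfr p n u V y) =
      ∑ i ∈ Finset.range n, mon p F (par n (fun i => u i ^ p ^ i) i) (i + 1) (c y) := by
  rw [sum_par hn _ fun a i => mon p F a i (c y), N.nfr, map_add, map_sum, h.iter p]
  congr 1
  refine Finset.sum_congr rfl fun i _ => ?_
  rw [h.tei, h.iter p, mon_mon, one_mul, zero_add]

theorem crv : CRV p := by
  intro S _ _ M _ _ n u V m h
  change ∃ c : M →+ Cv (hz p (par n fun i => u i ^ p ^ i)), IsCrv p _ V c ∧ c m = xx _ ∧ ∀ y, Typ p _ (c y)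
  obtain ⟨cv, hc⟩ := cart p S (par n fun i => u i ^ p ^ i)
  let c : M →+ Cv (hz p (par n fun i => u i ^ p ^ i)) := ∑ i : Fin n, (mon p (hz p (par n fun i => u i ^ p ^ i)) 1 i).comp
    ((cv.comp (sg p S ^ (i : ℕ)).toAddMonoidHom).comp (h.bas.coord i).toAddMonoidHom)
  have c_app : ∀ y, c y = ∑ i : Fin n,
      mon p (hz p (par n fun i => u i ^ p ^ i)) 1 i (cv ((sg p S ^ (i : ℕ)) (h.bas.repr y i))) :=
    fun y => AddMonoidHom.finset_sum_apply _ _ _
  have hb : ∀ i : Fin n, (h.bas p) i = V^[i] m := fun i => Module.Basis.mk_apply _ _ i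
  have h1 : ∀ i, i < n → ∀ w, c (w • V^[i] m) = mon p (hz p (par n fun i => u i ^ p ^ i)) 1 i (cv ((sg p S ^ i) w)) := by
    intro i hi w
    have := hb ⟨i, hi⟩
    dsimp only at this
    rw [c_app, ← this, Finset.sum_eq_single ⟨i, hi⟩]
    · simp
    · intro j _ hj
      simp [Finsupp.single_eq_of_ne hj]
    · simp
  have h2 : ∀ w, c (w • V^[n] m) = mon p (hz p (par n fun i => u i ^ p ^ i)) 1 n (cv ((sg p S ^ n) w)) := by
    intro w
    have e1 := congrArg (fun y => c (w • y)) h.rel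
    have e2 := h1 0 h.pos w
    have e3 := cv_p p hc (par_zero _) w
    rw [sum_par h.pos _ fun a i => mon p (hz p (par n fun i => u i ^ p ^ i)) 1 i (cv ((sg p S ^ i) w * tm p a))] at e3
    rw [Function.iterate_zero_apply, mon_one_zero, pow_zero] at e2
    rw [smul_comm, map_nsmul, e2, nfr, smul_add, map_add, Finset.smul_sum, map_sum] at e1
    have e4 := e1.symm.trans e3
    rw [Finset.sum_congr rfl fun i hi => ?_, add_left_inj, tm, map_one, mul_one] at e4
    · exact e4
    · rw [smul_smul, h1 i (Finset.mem_Ico.1 hi).2, map_mul, sg_pow_tm']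
  have h3 : ∀ i, i ≤ n → ∀ w, c (w • V^[i] m) = mon p (hz p (par n fun i => u i ^ p ^ i)) 1 i (cv ((sg p S ^ i) w)) := by
    intro i hi
    rcases hi.lt_or_eq with hi | rfl
    · exact h1 i hi
    · exact h2
  refine ⟨c, ⟨fun a y => ?_, fun y => ?_⟩, ?_, fun y => ?_⟩
  · rw [c_app, c_app, map_sum]
    refine Finset.sum_congr rfl fun i _ => ?_
    rw [map_smul, Finsupp.smul_apply, smul_eq_mul, map_mul, sg_pow_tm']
    exact (congrArg _ (cv_tm p hc _ _)).trans (mon_swap p _ _ _ _)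
  · conv_lhs => rw [← h.bas.sum_repr y]
    rw [c_app y, map_sum, map_sum, map_sum]
    refine Finset.sum_congr rfl fun i _ => ?_
    rw [h.semi, hb, ← Function.iterate_succ_apply' V, h3 _ i.2, mon_mon, one_pow, mul_one,
      add_comm 1, pow_succ, RingHom.mul_def, RingHom.comp_apply]
    exact congrArg (fun w => mon p (hz p (par n fun i => u i ^ p ^ i)) 1 (i + 1) (cv ((sg p S ^ (i : ℕ)) w)))
      (WittVector.ext fun j => rt_pow _)
  · have := h1 0 h.pos 1
    rw [one_smul, Function.iterate_zero_apply, mon_one_zero, pow_zero] at this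
    rw [this]
    exact (congrArg cv (map_one (teichmuller p)).symm).trans ((hc 1).trans (mon_one_zero p _ _))
  · rw [c_app]
    exact Finset.sum_induction _ _ (fun _ _ => typ_add p) (typ_zero p _) fun i _ =>
      typ_ver p (typ_cv p hc _) i

theorem hom_of (h0 : HOM0 p) : HOM p := by
  intro S _ _ M _ _ n u V m h c hc hm n' u' y hn hy
  obtain ⟨c', hc', hm', ht⟩ := crv p S M n u V m h
  obtain rfl : c = c' := cun p S M n V m h.sp S Ch.char (RingHom.id S) _ c c' hc.tei hc'.tei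
    hc.ver hc'.ver (hm.trans hm'.symm)
  refine h0 S _ _ n' (par_zero _) (c y) (ht y) ?_
  rw [← map_nsmul, hy, hc.nfr p hn]

end Vale.Agent.P261Z.N
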