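import Vale.Agent.P261Z.N.Sk
import Vale.Agent.P261Z.W.Witt

/-! P261, block N1: the linear coefficient and the endomorphisms in height `n`. -/

set_option linter.all false

namespace Vale.Agent.P261Z.N

open Vale.Agent.P217 Vale.Agent.P251.F Vale.Agent.P257.H80 _root_.P261 WittVector

variable {p : ℕ} [hp : Fact p.Prime]

namespace En

section curves

variable {S : Type} [CommRing S] {F : Law S}

/-- the linear coefficient -/
noncomputable def lc (F : Law S) : Cv F →+ S where
  toFun z := PowerSeries.coeff 1 z.ser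
  map_zero' := map_zero _
  map_add' a b := coeff_one_add a.cc b.cc

theorem lc_mon (a : S) (i : ℕ) : lc F (mon p F a i (xx F)) = if i = 0 then a else 0 := by
  change PowerSeries.coeff 1 (mon p F a i (xx F)).ser = _
  rw [mon_xx_ser, PowerSeries.coeff_C_mul, PowerSeries.coeff_X_pow]
  rcases eq_or_ne i 0 with rfl | h
  · simp
  · rw [if_neg h, if_neg (Nat.one_lt_pow h hp.out.one_lt).ne, mul_zero]

theorem mon_ser_one (i : ℕ) (z : Cv F) : (mon p F 1 i z).ser =
    PowerSeries.subst (PowerSeries.X ^ p ^ i : PowerSeries S) z.ser := by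
  rw [mon_ser, map_one, one_mul]

theorem mon_inj {i : ℕ} {z : Cv F} (h : mon p F 1 i z = 0) : z = 0 := by
  refine Cv.ext (PowerSeries.ext fun j => ?_)
  have h1 := congrArg (fun z => PowerSeries.coeff (p ^ i * j) (Cv.ser z)) h
  simp only [mon_ser_one] at h1
  rw [PowerSeries.coeff_subst_X_pow (pow_ne_zero i hp.out.ne_zero), if_pos (dvd_mul_right _ _),
    Nat.mul_div_cancel_left _ (pow_pos hp.out.pos i)] at h1
  exact h1

/-- the endomorphisms -/
def ends (F : Law S) : AddSubgroup (Cv F) where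
  carrier := {z | IsHom F.toFG F.toFG z.ser}
  add_mem' ha hb := IsHom.addL ha hb
  zero_mem' := isHom_zero
  neg_mem' {z} hz := by
    obtain ⟨g, hg⟩ := EndF.exists_neg (EndF.mk z.ser hz)
    have h : (g.toPt : Cv F) = -z := eq_neg_of_add_eq_zero_left (congrArg EndF.toPt hg)
    rw [← h]
    exact g.isHom

theorem ends_p {n : ℕ} (hF : p • xx F = mon p F 1 n (xx F)) {z : Cv F} (hz : z ∈ ends F) :
    multSeries F.toFG p = PowerSeries.X ^ p ^ n ∧ p • z = mon p F 1 n z := by
  have h : multSeries F.toFG p = PowerSeries.X ^ p ^ n := by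
    have h1 := congrArg Cv.ser hF
    rwa [Cv.ser_nsmul, xx_ser, PowerSeries.X_subst, mon_xx_ser, map_one, one_mul] at h1
  refine ⟨h, Cv.ext ?_⟩
  rw [Cv.ser_nsmul, mon_ser_one, ← IsHom_multSeries hz, h]

theorem lc_pow {n : ℕ} (hF : p • xx F = mon p F 1 n (xx F)) {z : Cv F} (hz : z ∈ ends F) :
    lc F z ^ p ^ n = lc F z := by
  obtain ⟨h1, h2⟩ := ends_p hF hz
  have h0 := hasSubst_of_cc z.cc
  have h3 := congrArg (fun z => PowerSeries.coeff (p ^ n) (Cv.ser z)) h2
  simp only [mon_ser_one, Cv.ser_nsmul, h1] at h3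
  rw [PowerSeries.subst_pow h0, PowerSeries.subst_X h0,
    PowerSeries.coeff_subst_X_pow (pow_ne_zero n hp.out.ne_zero), if_pos dvd_rfl,
    Nat.div_self (pow_pos hp.out.pos n)] at h3
  obtain ⟨g, hg⟩ := PowerSeries.X_dvd_iff.2 z.cc
  have h4 : lc F z = PowerSeries.constantCoeff g := by
    change PowerSeries.coeff (0 + 1) z.ser = _
    rw [hg, PowerSeries.coeff_succ_X_mul, PowerSeries.coeff_zero_eq_constantCoeff_apply]
  refine Eq.trans ?_ h3
  rw [h4, hg, mul_pow, ← map_pow, ← PowerSeries.coeff_zero_eq_constantCoeff_apply,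
    ← PowerSeries.coeff_X_pow_mul _ (p ^ n) 0, zero_add]

theorem exists_mon [Ch p S] (hF : F.map (fr p S) = F) {z : Cv F} (hz : z ∈ ends F)
    (h0 : lc F z = 0) : ∃ z' ∈ ends F, z = mon p F 1 1 z' := by
  rcases subsingleton_or_nontrivial S with h | h
  · exact ⟨z, hz, Cv.ext (PowerSeries.ext fun _ => Subsingleton.elim _ _)⟩
  have : CharP S p := Ch.charP
  obtain ⟨g, hg⟩ := exists_expand_of_derivative_eq_zero p z.ser (hz.derivative_eq_zeroL h0)
  have h1 : IsHom F.toFG F.toFG z.ser := hz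
  rw [hg] at h1
  have h2 := IsHom.of_expandL p hp.out.ne_zero h1
  rw [show F.toFG.map (frobenius S p) = F.toFG from congrArg Law.toFG hF] at h2
  refine ⟨Cv.mk F g h2.1, h2, Cv.ext ?_⟩
  rw [mon_ser_one, pow_one, hg, PowerSeries.expand_apply]
  rfl

end curves

variable {S : Type} [CommRing S] [Pf p S] {M : Type} [AddCommGroup M] [Module (WittVector p S) M]
  {n : ℕ} {u : ℕ → S} {V : M →+ M} {m : M} {F : Law S} {c : M →+ Cv F}

theorem c_iter (hc : IsCrv p F V c) (i : ℕ) (y : M) : c (V^[i] y) = mon p F 1 i (c y) := by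
  induction i with
  | zero => exact (mon_one_zero p F _).symm
  | succ i ih => rw [Function.iterate_succ_apply', hc.ver, ih, mon_mon, one_pow, one_mul, add_comm]

theorem iter_smul (h : NF p n u V m) (k : ℕ) (w : WittVector p S) (y : M) :
    V^[k] (w • y) = (si p S ^ k) w • V^[k] y := by
  induction k with
  | zero => rfl
  | succ k ih =>
    rw [Function.iterate_succ_apply', ih, h.semi, Function.iterate_succ_apply', pow_succ']
    rfl

theorem smul_mem (h : NF p n u V m) (w : WittVector p S) {k : ℕ} (hk : k ≠ 0) :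
    w • V^[k] m ∈ V.range := by
  obtain ⟨k, rfl⟩ := Nat.exists_eq_succ_of_ne_zero hk
  refine ⟨sg p S w • V^[k] m, ?_⟩
  rw [h.semi, Function.iterate_succ_apply']
  exact congrArg (· • _) (si_sg w)

theorem nfr_zero (y : M) : nfr p n (0 : ℕ → S) V y = V^[n] y := by
  simp [nfr]

theorem iter_p (h : NF p n (0 : ℕ → S) V m) (y : M) : ∃ y', V^[n] y = p • y' := by
  have hy : y ∈ Submodule.span _ _ := h.sp Submodule.mem_top
  induction hy using Submodule.span_induction with
  | mem _ hx =>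
    obtain ⟨i, rfl⟩ := hx
    refine ⟨V^[i] m, ?_⟩
    rw [← iterate_map_nsmul, h.rel, nfr_zero, ← Function.iterate_add_apply,
      ← Function.iterate_add_apply, add_comm]
  | zero => exact ⟨0, by rw [iterate_map_zero, smul_zero]⟩
  | add a b _ _ ha hb =>
    obtain ⟨a', ha⟩ := ha
    obtain ⟨b', hb⟩ := hb
    exact ⟨a' + b', by rw [iterate_map_add, ha, hb, smul_add]⟩
  | smul w a _ ha =>
    obtain ⟨a', ha⟩ := ha
    exact ⟨_, by rw [iter_smul h, ha, smul_comm]⟩

theorem iter_pow (h : NF p n (0 : ℕ → S) V m) (t : ℕ) (y : M) :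
    ∃ y', V^[n * t] y = p ^ t • y' := by
  induction t generalizing y with
  | zero => exact ⟨y, by simp⟩
  | succ t ih =>
    obtain ⟨a, ha⟩ := iter_p h y
    obtain ⟨b, hb⟩ := ih a
    exact ⟨b, by rw [Nat.mul_succ, Function.iterate_add_apply, ha, iterate_map_nsmul, hb,
      ← mul_smul, pow_succ']⟩

theorem lead (h : NF p n u V m) (hc : IsCrv p F V c) (hm : c m = xx F) (y : M) :
    lc F (c y) = (h.bas.repr y ⟨0, h.pos⟩).coeff 0 := by
  have h1 : ∀ (w : WittVector p S) (i : ℕ),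
      lc F (c (w • V^[i] m)) = if i = 0 then w.coeff 0 else 0 := fun w i => by
    conv_lhs => rw [← tm_add_dv w, add_smul, mul_smul, Nat.cast_smul_eq_nsmul, map_add, map_add,
      map_nsmul, map_nsmul, nsmul_eq_mul, Ch.char, zero_mul, add_zero, hc.tei, c_iter hc, hm,
      mon_mon, zero_add, lc_mon]
    split_ifs with hi
    · rw [hi, pow_zero, pow_one, one_mul]
    · rfl
  conv_lhs => rw [← h.bas.sum_repr y, map_sum, map_sum]
  simp only [show ∀ i, h.bas p i = V^[i] m from Module.Basis.mk_apply _ _, h1]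
  rw [Finset.sum_eq_single ⟨0, h.pos⟩ (fun i _ hi => if_neg fun e => hi (Fin.ext e))
    (fun e => absurd (Finset.mem_univ _) e), if_pos rfl]

theorem inj (h : NF p n (0 : ℕ → S) V m) (hc : IsCrv p F V c) (hm : c m = xx F) :
    Function.Injective c := by
  have h1 : ∀ y, c y = 0 → ∃ y', y = V y' ∧ c y' = 0 := fun y hy => by
    have h0 := (lead h hc hm y).symm
    rw [hy, map_zero] at h0
    obtain ⟨y', rfl⟩ : y ∈ V.range := by
      rw [← h.bas.sum_repr y]
      refine sum_mem fun i _ => ?_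
      rw [show h.bas p i = V^[i] m from Module.Basis.mk_apply _ _ _]
      by_cases hi : (i : ℕ) = 0
      · obtain rfl : i = ⟨0, h.pos⟩ := Fin.ext hi
        rw [← p_mul_dv h0, mul_comm, mul_smul, Nat.cast_smul_eq_nsmul, Function.iterate_zero_apply,
          h.rel, nfr_zero]
        exact smul_mem h _ (Nat.ne_zero_of_lt h.pos)
      · exact smul_mem h _ hi
    exact ⟨y', rfl, mon_inj ((hc.ver y').symm.trans hy)⟩
  have h2 : ∀ N y, c y = 0 → ∃ y', y = V^[N] y' := fun N => by
    induction N with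
    | zero => exact fun y _ => ⟨y, rfl⟩
    | succ N ih =>
      intro y hy
      obtain ⟨a, rfl, ha⟩ := h1 y hy
      obtain ⟨b, rfl⟩ := ih a ha
      exact ⟨b, (Function.iterate_succ_apply' _ _ _).symm⟩
  refine (injective_iff_map_eq_zero c).2 fun y hy => h.bas.ext_elem fun i =>
    _root_.P261.Cg.ext fun t => ?_
  obtain ⟨a, ha⟩ := h2 (n * t) y hy
  obtain ⟨b, hb⟩ := iter_pow h t a
  rw [ha, hb, map_nsmul, Finsupp.smul_apply, nsmul_eq_mul, Nat.cast_pow, map_zero]
  exact cg_pow_mul t _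

theorem sur (h : NF p n u V m) (h1 : ∀ z ∈ ends F, ∃ y, ∃ z' ∈ ends F, z = c y + p • z')
    {z : Cv F} (hz : z ∈ ends F) : ∃ y, c y = z := by
  choose! a f h2 h3 using h1
  have h4 : ∀ N, f^[N] z ∈ ends F ∧
      z = c (∑ j ∈ Finset.range N, p ^ j • a (f^[j] z)) + p ^ N • f^[N] z := fun N => by
    induction N with
    | zero => exact ⟨hz, by simp⟩
    | succ N ih =>
      rw [Function.iterate_succ_apply', Finset.sum_range_succ, map_add, map_nsmul, add_assoc,
        pow_succ, mul_smul, ← smul_add, ← h3 _ ih.1]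
      exact ⟨h2 _ ih.1, ih.2⟩
  refine ⟨h.bas.equivFun.symm fun i => psum fun j => h.bas.repr (a (f^[j] z)) i,
    Cg.eq fun N => Cg.mono (d := N + 1) ?_ N.le_succ⟩
  choose r hr using fun i => cg_zero_iff.1 (_root_.P261.Cg.iff_sub.1
    (psum_cg (fun j => h.bas.repr (a (f^[j] z)) i) N))
  have h5 : (h.bas.equivFun.symm fun i => psum fun j => h.bas.repr (a (f^[j] z)) i) =
      ∑ j ∈ Finset.range N, p ^ j • a (f^[j] z) + p ^ N • h.bas.equivFun.symm r := by
    refine h.bas.equivFun.injective (funext fun i => ?_)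
    simp only [LinearEquiv.apply_symm_apply, map_add, map_sum, map_nsmul, Pi.add_apply,
      Finset.sum_apply, Pi.smul_apply, nsmul_eq_mul, Nat.cast_pow, Module.Basis.equivFun_apply]
    exact sub_eq_iff_eq_add'.1 (hr i)
  rw [h5, map_add, map_nsmul]
  conv_rhs => rw [(h4 N).2]
  exact (Cg.refl _ _).add
    ((cg_pow_smul p Ch.char N _).trans (cg_pow_smul p Ch.char N _).symm)

theorem pser (h1 : PSER p) (hn : 1 ≤ n) :
    p • xx (lw p n (0 : ℕ → S)) = mon p _ 1 n (xx _) := by
  obtain ⟨n, rfl⟩ := Nat.exists_eq_add_of_le' hn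
  refine (h1 S Ch.char _ (n + 1) fun i hi => ?_).trans ?_
  · rw [par, if_neg (by omega), if_neg (by omega)]
  rw [Finset.sum_range_succ, Finset.sum_eq_zero fun i hi => ?_, zero_add, par,
    if_neg (lt_irrefl _), if_pos rfl]
  · rfl
  · rw [par, if_pos (by simpa using hi), Pi.zero_apply, zero_pow (pow_ne_zero _ hp.out.ne_zero),
      mon_zero]

end En

open En

theorem lead : LEAD p := fun _ _ _ _ _ _ _ _ _ _ h _ _ hc hm y => En.lead h hc hm y

theorem end_of (h1 : PSER p) (h2 : HOM p) : END p := by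
  intro S _ _ M _ _ n V m h c hc hm
  have hF := pser (S := S) h1 h.pos
  have hi := inj h hc hm
  have h3 : ∀ z ∈ ends _, ∃ y, ∃ z' ∈ ends _, z = c y + mon p _ 1 1 z' := fun z hz => by
    have e : c (tm p (lc _ z) • m) = mon p _ (lc _ z) 0 (xx _) := by rw [hc.tei, hm]
    have a1 : c (tm p (lc _ z) • m) ∈ ends _ := h2 S M n 0 V m h c hc hm n 0 _ h.pos (by
      have a2 : ∀ k a, (si p S ^ k) (tm p a) = tm p ((rt p S ^ k) a) := fun k a => by
        ext j
        rw [coeff_si_pow, tm, tm, ← map_teichmuller, map_coeff]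
      rw [nfr_zero, iter_smul h, a2, ← nfr_zero (p := p) (S := S) m, ← h.rel, smul_comm]
      conv_rhs => rw [← lc_pow hF hz, rt_pow_pp'])
    obtain ⟨z', a3, a4⟩ := exists_mon (F := lw p n 0) ((hzn_map p _ n _).trans (by
      simp only [map_pow, Pi.zero_apply, map_zero, lw])) (sub_mem hz a1)
      (by rw [map_sub, e, lc_mon, if_pos rfl, sub_self])
    exact ⟨_, z', a3, sub_eq_iff_eq_add'.1 a4⟩
  have h4 : ∀ N, ∀ z ∈ ends _, ∃ y, ∃ z' ∈ ends _, z = c y + mon p _ 1 N z' := fun N => by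
    induction N with
    | zero => exact fun z hz => ⟨0, z, hz, by rw [map_zero, zero_add, mon_one_zero]⟩
    | succ N ih =>
      intro z hz
      obtain ⟨a, z', b1, rfl⟩ := ih z hz
      obtain ⟨b, z'', b2, rfl⟩ := h3 z' b1
      exact ⟨a + V^[N] b, z'', b2, by
        rw [map_add, map_add, c_iter hc, mon_mon, one_pow, one_mul, add_assoc]⟩
  refine ⟨hi, fun g hg => ?_⟩
  have hz : Cv.mk _ g hg.1 ∈ ends _ := hg
  obtain ⟨y, hy⟩ := sur (c := c) h (fun z hz => (h4 n z hz).imp fun y ⟨z', b1, b2⟩ =>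
    ⟨z', b1, by rw [(ends_p hF b1).2, ← b2]⟩) hz
  refine ⟨y, hi ?_, congrArg Cv.ser hy⟩
  rw [map_nsmul, c_iter hc, hy, (ends_p hF hz).2]

end Vale.Agent.P261Z.N
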