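import Vale.Agent.P261Z.N.Sk
import Vale.Agent.P261Z.W.Witt

/-! P261, block N: typical curves with the `p`-series relation are homomorphisms. -/

set_option linter.all false

namespace Vale.Agent.P261Z.N

open Vale.Agent.P217 Vale.Agent.P251.F Vale.Agent.P257.H80 _root_.P261 WittVector

namespace Hm

section Gam

variable {S T : Type} [CommRing S] [CommRing T]

/-- the defect of `g` from being a homomorphism -/
noncomputable def dl (F' F : Law T) (g : PowerSeries T) : MvPowerSeries (Fin 2) T :=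
  (PowerSeries.subst F'.ps g : MvPowerSeries (Fin 2) T) - MvPowerSeries.subst
    ![(PowerSeries.subst (MvPowerSeries.X 0 : MvPowerSeries (Fin 2) T) g :
        MvPowerSeries (Fin 2) T),
      (PowerSeries.subst (MvPowerSeries.X 1 : MvPowerSeries (Fin 2) T) g :
        MvPowerSeries (Fin 2) T)] F.ps

/-- the curve `g (z x)` -/
noncomputable def gam {F' F : Law T} (g : Cv F) (z : Cv F') : Cv F := rep F z.ser z.cc g

theorem gam_ser {F' F : Law T} (g : Cv F) (z : Cv F') :
    (gam g z).ser = PowerSeries.subst z.ser g.ser := rfl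

theorem gam_zero {F' F : Law T} (g : Cv F) : gam g (0 : Cv F') = 0 :=
  Cv.ext (PowerSeries.subst_zero_of_constantCoeff_zero g.cc)

theorem ccX (i : Fin 2) :
    MvPowerSeries.constantCoeff (MvPowerSeries.X i : MvPowerSeries (Fin 2) T) = 0 :=
  MvPowerSeries.constantCoeff_X i

theorem dl_subst {F' F : Law T} (g : Cv F) (a b : Cv F') :
    MvPowerSeries.subst ![a.ser, b.ser] (dl F' F g.ser) =
      (gam g (a + b)).ser - (gam g a + gam g b).ser := by
  have hab := hasSubst_cons a.cc b.cc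
  rw [dl, MvPowerSeries.subst_sub hab, HT_subst_psubst F'.toFG.zero_constantCoeff hab,
    HT_subst_pair_comp (HT_constantCoeff_psubst (ccX 0) g.cc)
      (HT_constantCoeff_psubst (ccX 1) g.cc) hab, HT_subst_psubst (ccX 0) hab,
    HT_subst_psubst (ccX 1) hab, MvPowerSeries.subst_X hab, MvPowerSeries.subst_X hab]
  rfl

theorem dl_map (φ : S →+* T) (F' F : Law S) (g : Cv F) :
    MvPowerSeries.map φ (dl F' F g.ser) =
      dl (F'.map φ) (F.map φ) (PowerSeries.map φ g.ser) := by
  rw [dl, dl, map_sub, PowerSeries.map_subst (hasSubst_of_cc F'.toFG.zero_constantCoeff),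
    map_cons_subst φ F.toFG (HT_constantCoeff_psubst (ccX 0) g.cc)
      (HT_constantCoeff_psubst (ccX 1) g.cc), PowerSeries.map_subst (hasSubst_of_cc (ccX 0)),
    PowerSeries.map_subst (hasSubst_of_cc (ccX 1)), MvPowerSeries.map_X, MvPowerSeries.map_X]
  rfl

theorem gam_add {F' F : Law T} {g : Cv F} {d : ℕ} (h : dl F' F g.ser ∈ ordI (Fin 2) T d)
    (a : Cv F') {b : Cv F'} (hb : Cg 2 b 0) :
    Cg (d + 1) (gam g (a + b)) (gam g a + gam g b) := by
  rw [cg_iff_ordI] at hb ⊢
  have h1 := subst_perturb_of_mem h (a := a.ser) (b := b.ser) (a' := a.ser)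
    (b' := (0 : Cv F').ser) (mem_ordI_one.2 a.cc) (mem_ordI_one.2 b.cc) (mem_ordI_one.2 a.cc)
    (mem_ordI_one.2 (0 : Cv F').cc) (by rw [sub_self]; exact Ideal.zero_mem _) hb
  rwa [dl_subst, dl_subst, gam_zero, add_zero, add_zero, sub_self, sub_zero] at h1

theorem gam_sum {F' F : Law T} {g : Cv F} {d : ℕ} (h : dl F' F g.ser ∈ ordI (Fin 2) T d)
    (z : ℕ → Cv F') (hz : ∀ i, Cg 2 (z i) 0) (N : ℕ) :
    Cg (d + 1) (gam g (∑ i ∈ Finset.range N, z i)) (∑ i ∈ Finset.range N, gam g (z i)) := by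
  induction N with
  | zero => rw [Finset.sum_range_zero, Finset.sum_range_zero, gam_zero]; exact Cg.refl _ _
  | succ N ih =>
    rw [Finset.sum_range_succ, Finset.sum_range_succ]
    exact (gam_add h _ (hz N)).trans (ih.add (Cg.refl _ _))

variable (p : ℕ) [hp : Fact p.Prime]

theorem gam_mon {F' F : Law T} (g : Cv F) (a : T) (i : ℕ) :
    gam g (mon p F' a i (xx F')) = mon p F a i g := by
  apply Cv.ext
  rw [gam_ser, mon_xx_ser, mon_ser]

theorem gam_rep {F' F : Law T} (g : Cv F) (z y : Cv F') :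
    gam g (rep F' z.ser z.cc y) = rep F z.ser z.cc (gam g y) :=
  Cv.ext (psubst_comp y.cc z.cc g.ser).symm

theorem cg_rep_mon (F' : Law T) (z : Cv F') (a : T) (i : ℕ) :
    Cg 2 (rep F' z.ser z.cc (mon p F' a (i + 1) (xx F'))) 0 := by
  rw [cg_iff_ordI, Cv.ser_zero, sub_zero, rep_ser, mon_xx_ser]
  refine subst_mem_ordI (a := fun _ : Unit => z.ser) (fun _ => mem_ordI_one.2 z.cc) ?_
  refine Ideal.mul_mem_left _ _ (ordI_anti ?_ (ordI_pow (ordI_X ()) (p ^ (i + 1))))
  exact Nat.one_lt_pow (Nat.succ_ne_zero i) hp.out.one_lt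

theorem gam_p {F' F : Law T} {g : Cv F} {d : ℕ} (h : dl F' F g.ser ∈ ordI (Fin 2) T d)
    {v : ℕ → T} {N : ℕ}
    (h1 : p • xx F' = ∑ i ∈ Finset.range N, mon p F' (v i) (i + 1) (xx F'))
    (h2 : p • g = ∑ i ∈ Finset.range N, mon p F (v i) (i + 1) g) (z : Cv F') :
    Cg (d + 1) (gam g (p • z)) (p • gam g z) := by
  have e1 : p • z =
      ∑ i ∈ Finset.range N, rep F' z.ser z.cc (mon p F' (v i) (i + 1) (xx F')) := by
    rw [← map_sum, ← h1, map_nsmul, rep_xx]
    rfl
  have e2 : p • gam g z =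
      ∑ i ∈ Finset.range N, gam g (rep F' z.ser z.cc (mon p F' (v i) (i + 1) (xx F'))) := by
    simp only [gam_rep, gam_mon]
    rw [← map_sum, ← h2, map_nsmul]
    rfl
  rw [e2]
  conv_lhs => rw [e1]
  exact gam_sum h _ (fun i => cg_rep_mon p F' z (v i) i) N

theorem step [Pf p T] {F' F : Law T} {g : Cv F} {d : ℕ} (h : dl F' F g.ser ∈ ordI (Fin 2) T d)
    {v : ℕ → T} {N : ℕ}
    (h1 : p • xx F' = ∑ i ∈ Finset.range N, mon p F' (v i) (i + 1) (xx F'))
    (h2 : p • g = ∑ i ∈ Finset.range N, mon p F (v i) (i + 1) g)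
    {c' : WittVector p T →+ Cv F'} (hc' : ∀ a, c' (teichmuller p a) = mon p _ a 0 (xx _))
    {c : WittVector p T →+ Cv F} (hc : ∀ a, c (teichmuller p a) = mon p _ a 0 g)
    (hq : ∀ w, Cg d (gam g (c' w)) (c w)) (w : WittVector p T) :
    Cg (d + 1) (gam g (c' w)) (c w) := by
  have hT : (p : T) = 0 := Ch.char
  rw [← tm_add_dv w, ← nsmul_eq_mul, map_add, map_add, map_nsmul, map_nsmul, hc, hc']
  have h3 : Cg 2 (p • c' (dv w)) 0 := by
    have := (cg_one (c' (dv w)) 0).p_smul p hT
    rwa [smul_zero] at this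
  refine (gam_add h _ h3).trans ?_
  rw [gam_mon]
  exact (Cg.refl _ _).add ((gam_p p h h1 h2 _).trans ((hq _).p_smul p hT))

theorem diag [Pf p T] {F' F : Law T} {g : Cv F} {d : ℕ}
    {c' : WittVector p T →+ Cv F'} (hc' : ∀ a, c' (teichmuller p a) = mon p _ a 0 (xx _))
    {c : WittVector p T →+ Cv F} (hc : ∀ a, c (teichmuller p a) = mon p _ a 0 g)
    (hq : ∀ w, Cg d (gam g (c' w)) (c w)) (a b : T) :
    MvPowerSeries.subst ![(PowerSeries.C a * PowerSeries.X : PowerSeries T),
      PowerSeries.C b * PowerSeries.X] (dl F' F g.ser) ∈ ordI Unit T d := by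
  have h1 := hq (teichmuller p a + teichmuller p b)
  rw [map_add, map_add, hc, hc, hc', hc', ← gam_mon p (F' := F') g a,
    ← gam_mon p (F' := F') g b, cg_iff_ordI, ← dl_subst, mon_xx_ser, mon_xx_ser, pow_zero,
    pow_one] at h1
  exact h1

end Gam

section Gen

variable {S T : Type} [CommRing S] [CommRing T]

theorem cc_CX (a : T) :
    MvPowerSeries.constantCoeff (PowerSeries.C a * PowerSeries.X : PowerSeries T) = 0 := by
  have := cc_mon a one_ne_zero
  rwa [pow_one] at this

theorem prod_gen (e : Fin 2 →₀ ℕ) :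
    (e.prod fun s n => (![(PowerSeries.C (MvPolynomial.X 0) * PowerSeries.X :
        PowerSeries (MvPolynomial (Fin 2) S)),
      PowerSeries.C (MvPolynomial.X 1) * PowerSeries.X] s) ^ n) =
      PowerSeries.C (MvPolynomial.monomial e 1) * PowerSeries.X ^ e.degree := by
  rw [Finsupp.prod_fintype _ _ (fun _ => pow_zero _), Fin.prod_univ_two, Finsupp.degree_eq_sum,
    Fin.sum_univ_two, MvPolynomial.monomial_eq, Finsupp.prod_fintype _ _ (fun _ => pow_zero _),
    Fin.prod_univ_two]
  simp only [Matrix.cons_val_zero, Matrix.cons_val_one, map_one, one_mul, map_mul, map_pow]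
  ring

theorem gen_poly (δ : MvPowerSeries (Fin 2) S) {d : ℕ}
    (h : MvPowerSeries.subst ![(PowerSeries.C (MvPolynomial.X 0) * PowerSeries.X :
        PowerSeries (MvPolynomial (Fin 2) S)), PowerSeries.C (MvPolynomial.X 1) * PowerSeries.X]
      (MvPowerSeries.map (MvPolynomial.C : S →+* MvPolynomial (Fin 2) S) δ) ∈ ordI Unit _ d) :
    δ ∈ ordI (Fin 2) S d := by
  intro e he
  have hs := hasSubst_cons (cc_CX (MvPolynomial.X 0 : MvPolynomial (Fin 2) S))
    (cc_CX (MvPolynomial.X 1 : MvPolynomial (Fin 2) S))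
  have h1 := h (Finsupp.single () e.degree) (by simpa using he)
  rw [MvPowerSeries.coeff_subst hs] at h1
  have h2 := congrArg (MvPolynomial.coeffAddMonoidHom e) h1
  rw [AddMonoidHom.map_finsum _ (MvPowerSeries.coeff_subst_finite hs _ _), map_zero,
    finsum_eq_single _ e] at h2
  · rw [prod_gen] at h2
    change MvPolynomial.coeff e (_ • PowerSeries.coeff e.degree _) = 0 at h2
    rw [PowerSeries.coeff_C_mul, PowerSeries.coeff_X_pow_self, mul_one, MvPowerSeries.coeff_map,
      smul_eq_mul, MvPolynomial.coeff_C_mul, MvPolynomial.coeff_monomial, if_pos rfl,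
      mul_one] at h2
    exact h2
  · intro e' hne
    rw [prod_gen]
    change MvPolynomial.coeff e (_ • PowerSeries.coeff e.degree _) = 0
    rw [PowerSeries.coeff_C_mul, MvPowerSeries.coeff_map, smul_eq_mul, MvPolynomial.coeff_C_mul,
      PowerSeries.coeff_X_pow]
    split_ifs
    · rw [mul_one, MvPolynomial.coeff_monomial, if_neg hne, mul_zero]
    · rw [mul_zero, MvPolynomial.coeff_zero, mul_zero]

theorem gen (ψ : MvPolynomial (Fin 2) S →+* T) (hψ : Function.Injective ψ)
    (δ : MvPowerSeries (Fin 2) S) {d : ℕ}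
    (h : MvPowerSeries.subst ![(PowerSeries.C (ψ (MvPolynomial.X 0)) * PowerSeries.X :
        PowerSeries T), PowerSeries.C (ψ (MvPolynomial.X 1)) * PowerSeries.X]
      (MvPowerSeries.map (ψ.comp MvPolynomial.C) δ) ∈ ordI Unit T d) :
    δ ∈ ordI (Fin 2) S d := by
  apply gen_poly
  intro e he
  apply hψ
  have hs := hasSubst_cons (cc_CX (MvPolynomial.X 0 : MvPolynomial (Fin 2) S))
    (cc_CX (MvPolynomial.X 1 : MvPolynomial (Fin 2) S))
  rw [map_zero, ← MvPowerSeries.coeff_map, MvPowerSeries.map_subst hs, ← h e he]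
  congr 2
  funext i
  fin_cases i
  · change PowerSeries.map ψ (PowerSeries.C _ * PowerSeries.X) = PowerSeries.C _ * PowerSeries.X
    rw [map_mul, PowerSeries.map_C, PowerSeries.map_X]
  · change PowerSeries.map ψ (PowerSeries.C _ * PowerSeries.X) = PowerSeries.C _ * PowerSeries.X
    rw [map_mul, PowerSeries.map_C, PowerSeries.map_X]

variable (p : ℕ) [hp : Fact p.Prime]

/-- a perfect ring with two generic elements -/
theorem exists_gen (S : Type) [CommRing S] [Pf p S] :
    ∃ (T : Type) (_ : CommRing T) (_ : Pf p T) (ψ : MvPolynomial (Fin 2) S →+* T),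
      Function.Injective ψ := by
  rcases subsingleton_or_nontrivial S with h | h
  · exact ⟨S, inferInstance, inferInstance, MvPolynomial.constantCoeff,
      fun _ _ _ => Subsingleton.elim _ _⟩
  · haveI : CharP S p := Ch.charP
    haveI : IsReduced S := Pf.isReduced (p := p)
    refine ⟨PerfectClosure (MvPolynomial (Fin 2) S) p, inferInstance, Pf.of_charP,
      PerfectClosure.of _ p, fun x y hxy => ?_⟩
    exact (PerfectClosure.eq_iff _ p (0, x) (0, y)).1 hxy

end Gen

end Hm

variable (p : ℕ) [hp : Fact p.Prime]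

theorem hom0 (h1 : PSER p) (h2 : CART p) : HOM0 p := by
  intro S _ _ F v N hv g hg hrel
  obtain ⟨T, _, _, ψ, hψ⟩ := Hm.exists_gen p S
  let φ : S →+* T := ψ.comp MvPolynomial.C
  obtain ⟨c, hc⟩ := hg T φ
  have e := hz_map p φ v
  obtain ⟨c', hc'⟩ := h2 T fun i => φ (v i)
  have r1 := h1 T Ch.char (fun i => φ (v i)) N fun i hi => by rw [hv i hi, map_zero]
  have r2 : p • zmap φ rfl g =
      ∑ i ∈ Finset.range N, mon p (F.map φ) (φ (v i)) (i + 1) (zmap φ rfl g) := by
    rw [← map_nsmul, hrel, map_sum]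
    exact Finset.sum_congr rfl fun i _ => zmap_mon p φ rfl _ _ _
  have hd : MvPowerSeries.map φ (Hm.dl (hz p v) F g.ser) =
      Hm.dl (hz p fun i => φ (v i)) (F.map φ) (zmap φ rfl g).ser := by
    rw [Hm.dl_map, e]
    rfl
  have hP : ∀ d, (∀ w, Cg d (Hm.gam (zmap φ rfl g) (c' w)) (c w)) →
      Hm.dl (hz p v) F g.ser ∈ ordI (Fin 2) S d := by
    intro d hq
    refine Hm.gen ψ hψ _ ?_
    change MvPowerSeries.subst _ (MvPowerSeries.map φ _) ∈ _
    rw [hd]
    exact Hm.diag p hc' hc hq _ _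
  have hQ : ∀ d w, Cg d (Hm.gam (zmap φ rfl g) (c' w)) (c w) := by
    intro d
    induction d with
    | zero => exact fun w i hi => absurd hi (Nat.not_lt_zero _)
    | succ d ih =>
      refine Hm.step p ?_ r1 r2 hc' hc ih
      rw [← hd]
      exact ordI_map φ (hP d ih)
  exact ⟨g.cc, eq_of_forall_ordI fun d => hP d (hQ d)⟩

end Vale.Agent.P261Z.N
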