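import Vale.Agent.P261Z.N.Sk
import Vale.Agent.P251.F.LTCyc

/-! P261, block N2: the deformation data and the action of the group. -/

set_option linter.all false

namespace Vale.Agent.P261Z.N

open Vale.Agent.P217 Vale.Agent.P251.F Vale.Agent.P257.H80

variable {p : ℕ} [hp : Fact p.Prime]

namespace Lt

theorem lin_hz {S : Type} [CommRing S] (u : Sˣ) {v : ℕ → S}
    (h : ∀ i, v i = (u : S) ^ (p ^ (i + 1) - 1) * v i) : InvSeries.lin u • hz p v = hz p v :=
  eq_inv_smul_iff.1 (haz_lin p u fun i => by simpa using h i)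

theorem mem_map {X E : Type} [TopologicalSpace X] [CompactSpace X] [CommRing E] {I : Ideal E}
    (f : LocallyConstant X E) (h : ∀ x, f x ∈ I) :
    f ∈ I.map (algebraMap E (LocallyConstant X E)) := by
  classical
  have e : f = ∑ y ∈ f.range_finite.toFinset,
      f.map (fun z => if z = y then (1 : E) else 0) * algebraMap E _ y := by
    ext x
    have h1 := map_sum (LocallyConstant.evalRingHom x) (fun y =>
      f.map (fun z => if z = y then (1 : E) else 0) * algebraMap E _ y) f.range_finite.toFinset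
    refine Eq.trans ?_ h1.symm
    simp
  rw [e]
  refine Ideal.sum_mem _ fun y hy => Ideal.mul_mem_left _ _ (Ideal.mem_map_of_mem _ ?_)
  obtain ⟨x, rfl⟩ := f.range_finite.mem_toFinset.1 hy
  exact h x

end Lt

open Lt

theorem exd (h : PSER p) : EXD p := by
  intro n k _ hn card
  have : Finite k := Nat.finite_of_card_ne_zero (card ▸ pow_ne_zero _ hp.out.ne_zero)
  have := Fintype.ofFinite k
  have hc : Fintype.card k = p ^ n := Nat.card_eq_fintype_card.symm.trans card
  have hk : (p : k) = 0 := by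
    have h1 := FiniteField.cast_card_eq_zero k
    rwa [hc, Nat.cast_pow, pow_eq_zero_iff hn] at h1
  have : CharP k p := (CharP.charP_iff_prime_eq_zero hp.out).2 hk
  have hn1 : n - 1 + 1 = n := by omega
  refine ⟨⟨hzn p n 0, hzn p n (ext1 MvPolynomial.X), hn, card, ⟨?_, fun d => ?_, fun a => ?_⟩,
    ?_, ?_, fun ζ hζ => lin_hz _ fun i => ?_⟩, rfl⟩
  · have h1 := h k hk (par n 0) n fun i hi => by rw [par, if_neg (by omega), if_neg (by omega)]
    rw [Finset.sum_eq_single_of_mem (n - 1) (Finset.mem_range.2 (by omega)) fun i hi hi' => by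
      rw [par, if_pos (by have := Finset.mem_range.1 hi; omega), Pi.zero_apply, mon_zero]] at h1
    have h2 := congrArg Cv.ser h1
    rwa [Cv.ser_nsmul, xx_ser, PowerSeries.X_subst, mon_xx_ser, par, hn1, if_neg (lt_irrefl n),
      if_pos rfl, map_one, one_mul] at h2
  · have h1 : (hzn p n (0 : ℕ → k)).map (frobenius k p) = hzn p n 0 := by
      rw [hzn_map]
      exact hzn_congr p fun i _ _ => map_zero _
    have h2 := congrArg (fun F : Law k => MvPowerSeries.coeff d F.ps) h1
    simp only [Law.map_ps, MvPowerSeries.coeff_map, frobenius_def] at h2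
    exact h2
  · by_cases ha : a = 0
    · rw [ha, map_zero, zero_mul]
      exact isHom_zero
    refine (InvSeries.smul_eq_iff_isHom (InvSeries.lin (Units.mk0 a ha)) _ _).1
      (lin_hz _ fun i => ?_)
    unfold par
    split_ifs with h1 h2
    · exact (mul_zero _).symm
    · rw [h2, ← hc, Units.val_mk0, FiniteField.pow_card_sub_one_eq_one a ha, one_mul]
    · exact (mul_zero _).symm
  · have h1 := Ih_haz p (MvPolynomial.eval₂Hom (Int.castRingHom _)
      (par n (ext1 (MvPolynomial.X : Fin (n - 1) → MvPolynomial (Fin (n - 1)) k)))) (n - 1)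
    rw [hn1] at h1
    refine h1.trans ?_
    rw [HI, ← map_natCast (MvPolynomial.C : k →+* MvPolynomial (Fin (n - 1)) k), hk, map_zero,
      Ideal.span_insert_zero, MvPolynomial.idealOfVars]
    have h2 : ∀ (i : ℕ) (hi : i < n - 1), par n (ext1 (MvPolynomial.X :
        Fin (n - 1) → MvPolynomial (Fin (n - 1)) k)) i = MvPolynomial.X ⟨i, hi⟩ := fun i hi => by
      rw [par, if_pos (by omega), ext1, dif_pos (by omega)]
      rfl
    congr 1
    ext x
    simp only [MvPolynomial.eval₂Hom_X']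
    exact ⟨fun ⟨i, hi, e⟩ => ⟨⟨i, hi⟩, (h2 i hi).symm.trans e⟩,
      fun ⟨i, e⟩ => ⟨i, i.2, (h2 i i.2).trans e⟩⟩
  · rw [hzn_map]
    refine hzn_congr p fun i _ _ => ?_
    unfold ext1
    split_ifs
    · exact MvPolynomial.constantCoeff_X _ _
    · exact map_zero _
  · obtain ⟨m, hm⟩ : p - 1 ∣ p ^ (i + 1) - 1 := by
      have := Nat.sub_dvd_pow_sub_pow p 1 (i + 1)
      rwa [one_pow] at this
    rw [hm, pow_mul, ← Units.val_pow_eq_pow_val, ← map_pow, hζ, map_one, Units.val_one, one_pow,
      one_mul]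

theorem ltu : LTU p := by
  intro n k _ D j C _ J hJ x x' g g' h1 h2 h3 h4
  have h5 : D.pt j x g = D.pt j x' g' := by
    refine D.hom_unique _ _ (RJ.hom_ext ?_ ?_) hJ ?_
    · rw [RingHom.comp_assoc, RingHom.comp_assoc, D.ιR_comp_algebraMap, LTD.kk,
        ← RingHom.comp_assoc, ← RingHom.comp_assoc, D.pt_comp_inc, D.pt_comp_inc]
      exact RingHom.ext h1
    · rw [← Law.map_map, ← Law.map_map, D.law_map_ιR, D.law_eq, InvSeries.map_smul,
        InvSeries.map_smul, D.map_pt_ser, D.map_pt_ser, Law.map_map, Law.map_map, D.pt_comp_inc,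
        D.pt_comp_inc, h2]
    · rw [D.comp_pt, D.comp_pt]
      congr 1
      · exact RingHom.ext fun e => Ideal.Quotient.eq.2 (h3 e)
      · exact InvSeries.ext_c fun i => by
          rw [InvSeries.c_map, InvSeries.c_map, Ideal.Quotient.eq]
          exact h4 i
  exact ⟨by rw [← D.pt_comp_inc x g, h5, D.pt_comp_inc],
    by rw [← D.map_pt_ser x g, h5, D.map_pt_ser]⟩

theorem act0 : ACT0 p := by
  intro n k _ D j γ
  refine ⟨(D.isCo j).ser_smul (LawAction.isLawHom γ), (D.phiA j γ).commutes, fun e => ?_,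
    fun i => ?_⟩
  · have h : (EE.π k (n - 1) j).comp (phi D j γ) = EE.π k (n - 1) j := by
      rw [phi, CoPt.phi, ← RingHom.comp_assoc, ← RingHom.comp_assoc, D.π_comp_e,
        RingHom.comp_assoc _ (D.πT j), D.πT_comp_sm, RingHom.comp_assoc, RingHom.comp_assoc,
        D.coPt_ι, D.πT_comp_inc, ← RingHom.comp_assoc _ (OInv.inc k), D.α₁r_comp_inc,
        ← RingHom.comp_assoc, OInv.lift_comp_inc, RingHom.id_comp]
    exact RingHom.congr_fun h e
  · rw [← InvSeries.c_map, ser, D.map_π_ser]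
    rfl

theorem Lt.eqn {n : ℕ} {k : Type} [Field k] (D : LTD p n k) (j : ℕ)
    {co : D.EJ j →+* LocallyConstant D.GG (D.EJ j)}
    {s : InvSeries (LocallyConstant D.GG (D.EJ j))} (h1 : ∀ e γ, co e γ = phi D j γ e)
    (h2 : ∀ i γ, s.c i γ = (ser D j γ).c i) :
    s • (D.FE j).map co = (D.FE j).map (algebraMap _ _) := by
  refine Law.ext_ps (lc_map_injective fun γ => ?_)
  have e1 : InvSeries.map (LocallyConstant.evalRingHom γ) s = ser D j γ :=
    InvSeries.ext_c fun i => (InvSeries.c_map _ _ _).trans (h2 i γ)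
  have e2 : (LocallyConstant.evalRingHom γ).comp co = phi D j γ := RingHom.ext fun e => h1 e γ
  have e3 : (LocallyConstant.evalRingHom γ).comp
      (algebraMap (D.EJ j) (LocallyConstant D.GG (D.EJ j))) = RingHom.id _ :=
    RingHom.ext fun e => rfl
  rw [← Law.map_ps, ← Law.map_ps, InvSeries.map_smul, Law.map_map, Law.map_map, e1, e2, e3,
    Law.map_id, (act0 n k D j γ).1]

theorem coact : COACT p := by
  intro n k _ D j
  have lc : ∀ t, IsLocallyConstant fun γ : D.GG => (D.coPt j).e (D.sm j γ t) := fun t =>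
    ((D.ρ j).lc t).comp (D.coPt j).e
  let co : D.EJ j →+* LocallyConstant D.GG (D.EJ j) :=
    { toFun := fun e => ⟨fun γ => phi D j γ e, lc _⟩
      map_one' := LocallyConstant.ext fun γ => map_one (phi D j γ)
      map_mul' := fun a b => LocallyConstant.ext fun γ => map_mul (phi D j γ) a b
      map_zero' := LocallyConstant.ext fun γ => map_zero (phi D j γ)
      map_add' := fun a b => LocallyConstant.ext fun γ => map_add (phi D j γ) a b }
  have e : ∀ i γ, (D.coPt j).e (D.sm j γ ((D.ser j).c i)) = (ser D j γ).c i := fun i γ =>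
    (InvSeries.c_map ((D.coPt j).e.comp (D.sm j γ)) (D.ser j) i).symm
  let s : InvSeries (LocallyConstant D.GG (D.EJ j)) :=
    InvSeries.ofCoeff (fun i => ⟨_, lc ((D.ser j).c i)⟩)
      (lc_isUnit fun γ => (e 0 γ).symm ▸ (ser D j γ).isUnit)
  have h2 : ∀ i γ, s.c i γ = (ser D j γ).c i := fun i γ => by
    rw [InvSeries.c_ofCoeff]
    exact e i γ
  exact ⟨co, s, fun _ _ => rfl, h2, eqn D j (fun _ _ => rfl) h2⟩

theorem act : ACT p := by
  intro n k _ D j co s h1 h2 C _ J hJ β x' g' h3 h4 h5 h6 h7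
  have key : ∀ f : LocallyConstant D.GG (D.EJ j), (∀ γ, EE.π k (n - 1) j (f γ) = 0) → β f ∈ J :=
    fun f hf => (Ideal.map_le_iff_le_comap.2 h6 : _ ≤ J.comap β)
      (mem_map f fun γ => EE.ker_π k (n - 1) j ▸ hf γ)
  refine ltu n k D j C J hJ _ _ _ _ (fun a => ?_) ?_ (fun e => ?_) fun i => ?_
  · rw [h3, RingHom.comp_apply]
    congr 1
    exact LocallyConstant.ext fun γ => ((h1 _ γ).trans ((act0 n k D j γ).2.1 a)).symm
  · rw [h4, ← Law.map_map, ← Law.map_map, ← InvSeries.map_smul, eqn D j h1 h2]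
  · have a1 := h5 (e - algebraMap k (D.EJ j) (EE.π k (n - 1) j e)) (by
      rw [← EE.ker_π, RingHom.mem_ker, map_sub, EE.π_algebraMap, sub_self])
    have a2 := key (co e - algebraMap _ _ (algebraMap k (D.EJ j) (EE.π k (n - 1) j e))) fun γ => by
      change EE.π k (n - 1) j (co e γ - algebraMap k (D.EJ j) (EE.π k (n - 1) j e)) = 0
      rw [map_sub, h1, (act0 n k D j γ).2.2.1, EE.π_algebraMap, sub_self]
    rw [map_sub, h3] at a1
    rw [map_sub] at a2
    simpa using J.sub_mem a1 a2
  · have a2 := key (s.c i - (cfLC D.H.toFG (i + 1)).map (algebraMap k (D.EJ j))) fun γ => by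
      change EE.π k (n - 1) j (s.c i γ - algebraMap k (D.EJ j) (γ.cf (i + 1))) = 0
      rw [map_sub, h2, (act0 n k D j γ).2.2.2, EE.π_algebraMap, sub_self]
    rw [map_sub] at a2
    simpa using J.sub_mem (h7 i) a2

end Vale.Agent.P261Z.N
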