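import Vale.Agent.P261Z.N.RG
import Vale.Agent.P261Z.N.Ltd

/-! P261, block N2: existence of the action on the ring of power series. -/

set_option linter.all false

namespace Vale.Agent.P261Z.N.Rx

open Vale.Agent.P217 Vale.Agent.P251.F Vale.Agent.P257.H80 MvPowerSeries Ev

section Lim

variable {σ K : Type} [CommRing K] [Finite σ]

theorem pow_le_ordI (n : ℕ) : IX σ K ^ n ≤ ordI σ K n := by
  induction n with
  | zero => rw [ordI_zero]; exact le_top
  | succ n ih =>
    rw [pow_succ]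
    exact Ideal.mul_le.2 fun a ha b hb => ordI_mul (ih ha) (mem_ordI_one.2 (mem_IX.1 hb))

theorem mk_eq_iff {n : ℕ} {a b : MvPowerSeries σ K} :
    Ideal.Quotient.mk (IX σ K ^ n) a = Ideal.Quotient.mk _ b ↔
      ∀ d : σ →₀ ℕ, d.degree < n → coeff d a = coeff d b := by
  rw [Ideal.Quotient.eq]
  refine ⟨fun h d hd => coeff_eq_of_sub_mem (pow_le_ordI n h) hd, fun h => mem_pow n _ ?_⟩
  intro d hd
  rw [map_sub, h d hd, sub_self]

theorem eq_of_mk {a b : MvPowerSeries σ K}
    (h : ∀ n, Ideal.Quotient.mk (IX σ K ^ (n + 1)) a = Ideal.Quotient.mk _ b) : a = b :=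
  MvPowerSeries.ext fun d => mk_eq_iff.1 (h d.degree) d (Nat.lt_succ_self _)

theorem haus : IsHausdorff (IX σ K) (MvPowerSeries σ K) := ⟨fun x hx => eq_of_mk fun n => by
  rw [map_zero, Ideal.Quotient.eq_zero_iff_mem]
  simpa [SModEq.zero] using hx (n + 1)⟩

/-- the transition maps -/
noncomputable def tr (σ K : Type) [CommRing K] (j : ℕ) :
    MvPowerSeries σ K ⧸ IX σ K ^ (j + 1 + 1) →+* MvPowerSeries σ K ⧸ IX σ K ^ (j + 1) :=
  Ideal.Quotient.factor (Ideal.pow_le_pow_right (Nat.le_succ _))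

theorem exists_lim (q : ∀ j : ℕ, MvPowerSeries σ K ⧸ IX σ K ^ (j + 1))
    (h : ∀ j, tr σ K j (q (j + 1)) = q j) : ∃ r, ∀ j, Ideal.Quotient.mk _ r = q j := by
  choose a ha using fun j => Ideal.Quotient.mk_surjective (q j)
  have h1 : ∀ j (d : σ →₀ ℕ), d.degree ≤ j → coeff d (a j) = coeff d (a d.degree) := by
    intro j d hd
    induction j, hd using Nat.le_induction with
    | base => rfl
    | succ j hj ih =>
      rw [← ih]
      refine mk_eq_iff.1 ?_ d (Nat.lt_succ_of_le hj)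
      rw [ha, ← h j, ← ha]
      rfl
  refine ⟨fun d => coeff d (a d.degree), fun j => ?_⟩
  rw [← ha]
  exact mk_eq_iff.2 fun d hd => (h1 j d (Nat.le_of_lt_succ hd)).symm

theorem lc_coeff {G : Type} [TopologicalSpace G] {f : G → MvPowerSeries σ K}
    (h : ∀ j, IsLocallyConstant fun g => Ideal.Quotient.mk (IX σ K ^ (j + 1)) (f g))
    (d : σ →₀ ℕ) : IsLocallyConstant fun g => coeff d (f g) :=
  (IsLocallyConstant.iff_eventually_eq _).2 fun g =>
    ((h d.degree).eventually_eq g).mono fun _ e => mk_eq_iff.1 e d (Nat.lt_succ_self _)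

end Lim

theorem haus_of_pow {C : Type} [CommRing C] {J : Ideal C} {N : ℕ} (h : J ^ N = ⊥) :
    IsHausdorff J C := ⟨fun x hx => by simpa [SModEq.zero, h] using hx N⟩

theorem map_pow_bot {C : Type} [CommRing C] (J : Ideal C) (N : ℕ) :
    J.map (Ideal.Quotient.mk (J ^ N)) ^ N = ⊥ := by
  rw [← Ideal.map_pow, Ideal.map_quotient_self]

variable {p : ℕ} [hp : Fact p.Prime]

theorem FE_map {n : ℕ} {k : Type} [Field k] {D : LTD p n k} (hD : IsHz p D) {j : ℕ} {C : Type}
    [CommRing C] (x : D.EJ j →+* C) :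
    (D.FE j).map x = hzn p n fun i => x (EE.mk k (n - 1) j (ext1 MvPolynomial.X i)) := by
  rw [LTD.FE, hD, hzn_map, hzn_map]

theorem ext1_eq {A : Type} [Zero A] {n : ℕ} (x : Fin (n - 1) → A) {i : ℕ} (h1 : 1 ≤ i)
    (h2 : i < n) : ext1 x i = x ⟨i - 1, by omega⟩ := dif_pos (by omega)

theorem Ih_hzn {C : Type} [CommRing C] (hC : (p : C) = 0) {n h : ℕ} (h1 : 1 ≤ h) (h2 : h ≤ n)
    (v : ℕ → C) : Ih p h (hzn p n v) = ⊥ ↔ ∀ i, 1 ≤ i → i < h → v i = 0 := by
  obtain ⟨h, rfl⟩ : ∃ e, h = e + 1 := ⟨h - 1, by omega⟩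
  rw [hzn, hz, Ih_haz]
  constructor
  · intro e i hi hi'
    have := mem_HI p (φ := MvPolynomial.eval₂Hom (Int.castRingHom C) (par n v))
      (show i - 1 < h by omega)
    rwa [e, Ideal.mem_bot, MvPolynomial.eval₂Hom_X', par, if_pos (by omega),
      Nat.sub_add_cancel hi] at this
  · intro e
    induction h with
    | zero => rw [HI_zero, hC, Ideal.span_singleton_zero]
    | succ h ih =>
      rw [HI_succ, ih (by omega) (by omega) fun i a b => e i a (by omega), MvPolynomial.eval₂Hom_X',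
        par, if_pos (by omega), e _ (by omega) (by omega), Ideal.span_singleton_zero, bot_sup_eq]

theorem law_ext {σ K : Type} [CommRing K] [Finite σ] {F G : Law (MvPowerSeries σ K)}
    (h : ∀ j, F.map (Ideal.Quotient.mk (IX σ K ^ (j + 1))) = G.map (Ideal.Quotient.mk _)) :
    F = G := Law.ext_ps (MvPowerSeries.ext fun d => eq_of_mk fun j =>
      congrArg (fun L : Law _ => coeff d L.ps) (h j))

theorem lc_phi {G σ K : Type} [TopologicalSpace G] [CommRing K] [Finite σ]
    (φ : G → MvPowerSeries σ K →ₐ[K] MvPowerSeries σ K) (j : ℕ)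
    (h0 : ∀ γ i, constantCoeff (φ γ (X i)) = 0)
    (h : ∀ i, IsLocallyConstant fun γ => Ideal.Quotient.mk (IX σ K ^ (j + 1)) (φ γ (X i)))
    (r : MvPowerSeries σ K) :
    IsLocallyConstant fun γ => Ideal.Quotient.mk (IX σ K ^ (j + 1)) (φ γ r) := by
  refine (IsLocallyConstant.iff_eventually_eq _).2 fun γ => ?_
  refine (Filter.eventually_all.2 fun i => (h i).eventually_eq γ).mono fun γ' e => ?_
  have := haus_of_pow (map_pow_bot (IX σ K) (j + 1))
  exact RingHom.congr_fun (hom_ext ((IX σ K).map (Ideal.Quotient.mk (IX σ K ^ (j + 1))))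
    (E := (Ideal.Quotient.mk _).comp (φ γ' : MvPowerSeries σ K →+* MvPowerSeries σ K))
    (E' := (Ideal.Quotient.mk _).comp (φ γ : MvPowerSeries σ K →+* MvPowerSeries σ K))
    (fun a => congrArg (Ideal.Quotient.mk _) (((φ γ').commutes a).trans ((φ γ).commutes a).symm))
    e fun i => Ideal.mem_map_of_mem _ (mem_IX.2 (h0 γ' i))) r

theorem exh_mem {A : Type} [CommRing A] {J : Ideal A} (h : ℕ) {c : ℕ} {x : Fin c → A}
    (hx : ∀ j, x j ∈ J) (i : ℕ) : exh h x i ∈ J := by
  unfold exh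
  split_ifs
  · exact hx _
  · exact J.zero_mem

theorem exists_r {n : ℕ} {k K : Type} [Field k] [Field K] (D : LTD p n k) (ι : k →+* K)
    (h c j : ℕ) : ∃ r, IsR p D ι h c j r := by
  letI : Algebra k (RR c K ⧸ IX (Fin c) K ^ (j + 1)) :=
    ((Ideal.Quotient.mk _).comp ((C : K →+* RR c K).comp ι)).toAlgebra
  have hw : Ideal.span (Set.range fun i : Fin (n - 1) =>
      Ideal.Quotient.mk (IX (Fin c) K ^ (j + 1)) (exh h X (i + 1))) ^ (j + 1) = ⊥ := by
    rw [eq_bot_iff, ← map_pow_bot (IX (Fin c) K) (j + 1)]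
    refine Ideal.pow_right_mono (Ideal.span_le.2 ?_) _
    rintro _ ⟨i, rfl⟩
    exact Ideal.mem_map_of_mem _ (exh_mem h X_mem _)
  exact ⟨(EE.liftA k (n - 1) _ hw : _ →+* _), fun a => (EE.liftA k (n - 1) _ hw).commutes a,
    fun i => (EE.liftA_mk k (n - 1) _ hw _).trans (MvPolynomial.aeval_X _ _)⟩

/-- the pairs at finite level -/
theorem level {n : ℕ} {k K : Type} [Field k] [Field K] {D : LTD p n k} (hD : IsHz p D)
    (ι : k →+* K) {h c : ℕ} (h1 : 1 ≤ h) (hn : h + c = n) (j : ℕ) :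
    ∃ (y : D.GG → Fin c → RR c K ⧸ IX (Fin c) K ^ (j + 1))
      (g : D.GG → InvSeries (RR c K ⧸ IX (Fin c) K ^ (j + 1))),
      (∀ i, IsLocallyConstant fun γ => y γ i) ∧ (∀ i, IsLocallyConstant fun γ => (g γ).c i) ∧
      ∀ γ, g γ • Fx p h (y γ) = (FR p h c K).map (Ideal.Quotient.mk _) ∧
        (∀ i, y γ i ∈ (IX (Fin c) K).map (Ideal.Quotient.mk _)) ∧
        ∀ i, (g γ).c i - Ideal.Quotient.mk _ (C (ι (γ.cf (i + 1)))) ∈
          (IX (Fin c) K).map (Ideal.Quotient.mk _) := by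
  subst hn
  obtain ⟨r, hr1, hr2⟩ := exists_r D ι h c j
  obtain ⟨co, s, hco, hs, -⟩ := coact (p := p) _ k D j
  have hm : ∀ e, EE.π k _ j e = 0 → r e ∈ (IX (Fin c) K).map (Ideal.Quotient.mk _) := by
    intro e he
    have : EE.m k (h + c - 1) j ≤ ((IX (Fin c) K).map (Ideal.Quotient.mk _)).comap r := by
      rw [EE.m_eq_span, Ideal.span_le]
      rintro _ ⟨i, rfl⟩
      refine Ideal.mem_comap.2 ?_
      rw [hr2]
      exact Ideal.mem_map_of_mem _ (exh_mem h X_mem _)
    exact this (by rwa [← EE.ker_π])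
  have hF : (D.FE j).map r = (FR p h c K).map (Ideal.Quotient.mk _) := by
    rw [FE_map hD, FR, Fx, hzn_map]
    refine hzn_congr p fun i a b => ?_
    rw [ext1_eq _ a b, hr2]
    congr 2
    exact Nat.sub_add_cancel a
  have hp0 : (p : RR c K ⧸ IX (Fin c) K ^ (j + 1)) = 0 := by
    rw [← map_natCast r, D.p_eq_zero' (algebraMap k (D.EJ j)), map_zero]
  refine ⟨fun γ i => r (phi D j γ (EE.mk k _ j (ext1 MvPolynomial.X (h + i)))),
    fun γ => InvSeries.map r (ser D j γ), fun i => ?_, fun i => ?_, fun γ => ?_⟩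
  · simp only [← hco]
    exact (co _).isLocallyConstant.comp r
  · simp only [InvSeries.c_map, ← hs]
    exact (s.c i).isLocallyConstant.comp r
  obtain ⟨a1, a2, a3, a4⟩ := act0 (p := p) _ k D j γ
  have e1 := congrArg (Law.map r) a1
  rw [InvSeries.map_smul, Law.map_map, hF, FE_map hD] at e1
  refine ⟨?_, fun i => hm _ ?_, fun i => ?_⟩
  · rw [← e1, Fx]
    congr 1
    have e2 := congrArg (Ih p h) e1
    rw [Ih_smul, FR, Fx, hzn_map] at e2
    replace e2 := e2.trans ((Ih_hzn hp0 h1 (Nat.le_add_right h c) _).2 fun i _ b => by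
      rw [exh_lt _ b, map_zero])
    refine hzn_congr p fun i a b => ?_
    by_cases hi : i < h
    · rw [exh_lt _ hi]
      exact ((Ih_hzn hp0 h1 (Nat.le_add_right h c) _).1 e2 i a hi).symm
    · obtain ⟨i, rfl⟩ := Nat.exists_eq_add_of_le (not_lt.1 hi)
      exact exh_add h _ ⟨i, by omega⟩
  · rw [a3, EE.π_mk, ext1_eq _ (by omega) (by omega), MvPolynomial.constantCoeff_X]
  · rw [InvSeries.c_map, ← hr1, ← map_sub]
    exact hm _ (by rw [map_sub, a4, EE.π_algebraMap, sub_self])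

end Vale.Agent.P261Z.N.Rx

namespace Vale.Agent.P261Z.N

open Vale.Agent.P217 Vale.Agent.P251.F Vale.Agent.P257.H80 MvPowerSeries Ev Rx

variable {p : ℕ} [hp : Fact p.Prime]

/-- uniqueness for the laws `Fx` -/
theorem UNIC.fx (hU : UNIC p) {h c : ℕ} {k : Type} [Field k] (h1 : 1 ≤ h)
    (hk : Nat.card k = p ^ (h + c)) {S : Type} [CommRing S] (J : Ideal S) [IsHausdorff J S]
    (κ : k →+* S) {y y' : Fin c → S} {g g' : InvSeries S} (hy : ∀ j, y j ∈ J)
    (hy' : ∀ j, y' j ∈ J) (e : g • Fx p h y = g' • Fx p h y')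
    (hg : ∀ i, g.c i - g'.c i ∈ J.radical) : y = y' ∧ g = g' := by
  obtain ⟨a, b⟩ := hU (h + c) k (by omega) hk S J κ _ _ g g' (fun i _ _ => exh_mem h hy i)
    (fun i _ _ => exh_mem h hy' i) e hg
  refine ⟨funext fun j => ?_, b⟩
  have := a (h + j) (by omega) (by omega)
  rwa [exh_add, exh_add] at this

theorem rgex (hU : UNIC p) : RGEX p := by
  intro n k _ D hD h c h1 hn K _ ι
  have hk : Nat.card k = p ^ (h + c) := hn ▸ D.card
  choose y g ly lg H using level hD ι h1 hn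
  have cp : ∀ j γ, (fun i => tr _ K j (y (j + 1) γ i)) = y j γ ∧
      InvSeries.map (tr _ K j) (g (j + 1) γ) = g j γ := by
    intro j γ
    have := haus_of_pow (map_pow_bot (IX (Fin c) K) (j + 1))
    have hJ : ∀ x ∈ (IX (Fin c) K).map (Ideal.Quotient.mk _),
        tr _ K j x ∈ (IX (Fin c) K).map (Ideal.Quotient.mk _) := fun x hx => by
      have := Ideal.mem_map_of_mem (tr _ K j) hx
      rwa [Ideal.map_map] at this
    refine hU.fx h1 hk ((IX (Fin c) K).map (Ideal.Quotient.mk _))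
      ((Ideal.Quotient.mk _).comp ((C : K →+* RR c K).comp ι))
      (fun i => hJ _ ((H _ γ).2.1 i)) (H j γ).2.1 ?_ fun i => Ideal.le_radical ?_
    · rw [(H j γ).1, ← Fx_map, ← InvSeries.map_smul, (H (j + 1) γ).1, Law.map_map]
      rfl
    · have := Ideal.sub_mem _ (hJ _ ((H (j + 1) γ).2.2 i)) ((H j γ).2.2 i)
      rw [map_sub] at this
      rw [InvSeries.c_map]
      convert this using 1
      exact (sub_sub_sub_cancel_right _ _ _).symm
  choose Y hY using fun γ i => exists_lim (fun j => y j γ i) fun j => congrFun (cp j γ).1 i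
  choose s hs using fun γ i => exists_lim (fun j => (g j γ).c i) fun j => by
    rw [← (cp j γ).2, InvSeries.c_map]
  have mem : ∀ x : RR c K, Ideal.Quotient.mk (IX (Fin c) K ^ (0 + 1)) x ∈
      (IX (Fin c) K).map (Ideal.Quotient.mk _) → constantCoeff x = 0 := by
    intro x hx
    rw [zero_add, pow_one, Ideal.map_quotient_self, Ideal.mem_bot,
      Ideal.Quotient.eq_zero_iff_mem] at hx
    exact mem_IX.1 hx
  have hY0 : ∀ γ i, constantCoeff (Y γ i) = 0 := fun γ i => mem _ (by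
    rw [hY]; exact (H 0 γ).2.1 i)
  have hs0 : ∀ γ i, constantCoeff (s γ i) = ι (γ.cf (i + 1)) := fun γ i => by
    have := mem (s γ i - C (ι (γ.cf (i + 1)))) (by rw [map_sub, hs]; exact (H 0 γ).2.2 i)
    rwa [map_sub, constantCoeff_C, sub_eq_zero] at this
  have hu : ∀ γ, IsUnit (s γ 0) := fun γ => isUnit_iff_constantCoeff.2 (by
    rw [hs0]; exact γ.cf_one_isUnit.map ι)
  let S : D.GG → InvSeries (RR c K) := fun γ => InvSeries.ofCoeff (s γ) (hu γ)
  have hS : ∀ γ i, (S γ).c i = s γ i := fun γ i => InvSeries.c_ofCoeff _ _ i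
  let φ : D.GG → RR c K →ₐ[K] RR c K := fun γ =>
    substAlgHom (hasSubst_of_constantCoeff_zero (hY0 γ))
  have hφ : ∀ γ i, φ γ (X i) = Y γ i := fun γ i => substAlgHom_X _ i
  have hF : ∀ γ, (FR p h c K).map (φ γ : RR c K →+* RR c K) = Fx p h (Y γ) := fun γ => by
    rw [FR, Fx_map]; exact congrArg _ (funext (hφ γ))
  have law : ∀ γ, S γ • Fx p h (Y γ) = FR p h c K := fun γ => law_ext fun j => by
    rw [← (H j γ).1, InvSeries.map_smul, Fx_map]
    congr 1
    · exact InvSeries.ext_c fun i => by rw [InvSeries.c_map, hS, hs]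
    · exact congrArg _ (funext fun i => hY γ i j)
  have := haus (σ := Fin c) (K := K)
  have hcc : ∀ γ, (constantCoeff : RR c K →+* K).comp (φ γ : RR c K →+* RR c K) =
      constantCoeff := fun γ => by
    have := haus_of_pow (J := (⊥ : Ideal K)) (N := 1) (pow_one _)
    refine hom_ext ⊥ (fun r => ?_) (fun i => ?_) fun i => ?_
    · exact congrArg constantCoeff ((φ γ).commutes r)
    · exact ((congrArg constantCoeff (hφ γ i)).trans (hY0 γ i)).trans (constantCoeff_X i).symm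
    · exact (congrArg constantCoeff (hφ γ i)).trans (hY0 γ i)
  have hT : ∀ γ, InvSeries.map (constantCoeff : RR c K →+* K) (S γ) =
      InvSeries.map ι γ.toInv := fun γ => InvSeries.ext_c fun i => by
    rw [InvSeries.c_map, hS, hs0, InvSeries.c_map]; rfl
  have rad : ∀ a b : InvSeries (RR c K), InvSeries.map (constantCoeff : RR c K →+* K) a =
      InvSeries.map constantCoeff b → ∀ i, a.c i - b.c i ∈ (IX (Fin c) K).radical :=
    fun a b e i => Ideal.le_radical (mem_IX.2 (by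
      rw [map_sub, ← InvSeries.c_map, e, InvSeries.c_map, sub_self]))
  have ext : ∀ a b : RR c K →ₐ[K] RR c K, (∀ i, a (X i) = b (X i)) →
      (∀ i, constantCoeff (a (X i)) = 0) → a = b := fun a b e e' =>
    AlgHom.coe_ringHom_injective (hom_ext (IX (Fin c) K)
      (fun r => (a.commutes r).trans (b.commutes r).symm) e fun i => mem_IX.2 (e' i))
  have one : Y 1 = X ∧ S 1 = 1 := hU.fx h1 hk (IX (Fin c) K) ((C : K →+* RR c K).comp ι)
    (fun i => mem_IX.2 (hY0 1 i)) X_mem (by rw [law, one_smul, FR])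
    (rad _ _ (by rw [hT, map_one]; exact map_one _))
  have mul : ∀ γ γ', Y (γ * γ') = (fun i => φ γ (Y γ' i)) ∧
      S (γ * γ') = S γ * InvSeries.map (φ γ : RR c K →+* RR c K) (S γ') := fun γ γ' => by
    refine hU.fx h1 hk (IX (Fin c) K) ((C : K →+* RR c K).comp ι)
      (fun i => mem_IX.2 (hY0 _ i)) (fun i => mem_IX.2 ?_) ?_ (rad _ _ ?_)
    · exact (RingHom.congr_fun (hcc γ) _).trans (hY0 γ' i)
    · have := congrArg (Law.map (φ γ : RR c K →+* RR c K)) (law γ')
      rw [InvSeries.map_smul, Fx_map, hF] at this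
      rw [law, mul_smul]
      exact (law γ).symm.trans (congrArg _ this.symm)
    · rw [map_mul, InvSeries.map_map, hcc, hT, hT, hT, ← map_mul]
      rfl
  refine ⟨⟨⟨⟨φ, ext _ _ (fun i => ?_) fun i => ?_⟩, fun γ γ' => ext _ _ (fun i => ?_) fun i => ?_⟩,
    S, fun γ => ?_, one.2, fun γ γ' => (mul γ γ').2, fun γ i => ?_, fun r => lc_coeff fun j => ?_,
    fun i => lc_coeff fun j => ?_⟩, fun γ i => ?_⟩
  · rw [hφ, one.1]; rfl
  · rw [hφ, hY0]
  · rw [hφ, (mul γ γ').1]
    exact congrArg (φ γ) (hφ γ' i).symm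
  · rw [hφ, hY0]
  · exact (congrArg _ (hF γ)).trans (law γ)
  · exact (congrArg _ (hφ γ i)).trans (hY0 γ i)
  · exact lc_phi φ j (fun γ i => (congrArg _ (hφ γ i)).trans (hY0 γ i))
      (fun i => by simp only [hφ, hY]; exact ly j i) r
  · simp only [hS, hs]
    exact lg j i
  · exact (congrArg _ (hS γ i)).trans (hs0 γ i)

end Vale.Agent.P261Z.N
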