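import Vale.Agent.P261Z.N.RG

/-! P261, block N2: uniqueness of deformations over separated rings, and consequences. -/

set_option linter.all false

namespace Vale.Agent.P261Z.N

open Vale.Agent.P217 Vale.Agent.P251.F Vale.Agent.P257.H80 MvPowerSeries

variable {p : ℕ} [hp : Fact p.Prime]

namespace Un

section EJ

variable {k : Type} [Field k] {r j : ℕ} {B : Type} [CommRing B]

theorem ee_ext {x x' : EE k r j →+* B} (h1 : ∀ a, x (algebraMap k _ a) = x' (algebraMap k _ a))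
    (h2 : ∀ i, x (EE.mk k r j (MvPolynomial.X i)) = x' (EE.mk k r j (MvPolynomial.X i))) :
    x = x' :=
  Ideal.Quotient.ringHom_ext (MvPolynomial.ringHom_ext h1 h2)

theorem exists_lift (κ : k →+* B) {J : Ideal B} (hJ : J ^ (j + 1) = ⊥) {w : Fin r → B}
    (hw : ∀ i, w i ∈ J) : ∃ x : EE k r j →+* B, (∀ a, x (algebraMap k _ a) = κ a) ∧
      ∀ i, x (EE.mk k r j (MvPolynomial.X i)) = w i := by
  letI := κ.toAlgebra
  have h : Ideal.span (Set.range w) ^ (j + 1) = ⊥ := le_bot_iff.1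
    (hJ ▸ Ideal.pow_right_mono (Ideal.span_le.2 (Set.range_subset_iff.2 hw)) _)
  exact ⟨(EE.liftA k r w h).toRingHom, fun a => AlgHom.commutes _ a, fun i =>
    (EE.liftA_mk k r w h _).trans (MvPolynomial.aeval_X w i)⟩

theorem sub_mem_of {x x' : EE k r j →+* B} {J : Ideal B}
    (h1 : ∀ a, x (algebraMap k _ a) = x' (algebraMap k _ a))
    (h2 : ∀ i, x (EE.mk k r j (MvPolynomial.X i)) ∈ J)
    (h3 : ∀ i, x' (EE.mk k r j (MvPolynomial.X i)) ∈ J) (e : EE k r j) : x e - x' e ∈ J :=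
  Ideal.Quotient.eq.1 (RingHom.congr_fun (ee_ext (x := (Ideal.Quotient.mk J).comp x)
    (x' := (Ideal.Quotient.mk J).comp x') (fun a => congrArg (Ideal.Quotient.mk J) (h1 a))
    fun i => Ideal.Quotient.eq.2 (J.sub_mem (h2 i) (h3 i))) e)

theorem mem_of_π {x : EE k r j →+* B} {J : Ideal B}
    (h : ∀ i, x (EE.mk k r j (MvPolynomial.X i)) ∈ J) {e : EE k r j} (he : EE.π k r j e = 0) :
    x e ∈ J := by
  have h1 : e ∈ EE.m k r j := EE.ker_π k r j ▸ he
  rw [EE.m_eq_span] at h1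
  exact (Ideal.span_le (I := J.comap x)).2 (Set.range_subset_iff.2 h) h1

theorem map_mk_pow (J : Ideal B) (j : ℕ) : J.map (Ideal.Quotient.mk (J ^ j)) ^ j = ⊥ := by
  rw [← Ideal.map_pow, Ideal.map_quotient_self]

theorem haus {J : Ideal B} {j : ℕ} (hJ : J ^ j = ⊥) : IsHausdorff J B :=
  ⟨fun x hx => by simpa [hJ] using hx j⟩

theorem eq_zero_of_pow {x : B} (hx : IsNilpotent x) {q : ℕ} (hq : 1 < q) (h : x ^ q = x) :
    x = 0 := by
  obtain ⟨q, rfl⟩ : ∃ m, q = m + 1 := ⟨q - 1, by omega⟩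
  refine (hx.pow_of_pos (n := q) (by omega)).isUnit_one_sub.mul_right_eq_zero.1 ?_
  rw [sub_mul, one_mul, ← pow_succ, h, sub_self]

end EJ

section Law

variable {n : ℕ} {k : Type} [Field k] {D : LTD p n k} {B : Type} [CommRing B]

theorem FE_map (hD : IsHz p D) {j : ℕ} (x : D.EJ j →+* B) {v : ℕ → B}
    (hv : ∀ i : Fin (n - 1), x (EE.mk k (n - 1) j (MvPolynomial.X i)) = v (i + 1)) :
    (D.FE j).map x = hzn p n v := by
  rw [LTD.FE, hD, hzn_map, hzn_map]
  refine hzn_congr p fun i h1 h2 => ?_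
  have h3 : i - 1 < n - 1 := by omega
  rw [ext1, dif_pos h3, hv]
  exact congrArg v (Nat.sub_add_cancel h1)

theorem H_map (hD : IsHz p D) (κ : k →+* B) : D.H.map κ = hzn p n 0 := by
  rw [← D.red, hD, hzn_map, hzn_map]
  refine hzn_congr p fun i _ _ => ?_
  unfold ext1
  split_ifs <;> simp

theorem c_pow (hD : IsHz p D) (κ : k →+* B) {t : InvSeries B}
    (ht : t • hzn p n (0 : ℕ → B) = hzn p n 0)
    (ht' : ∀ i, IsNilpotent (t.c i - (1 : InvSeries B).c i)) :
    t = 1 := by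
  have := D.finite
  letI := κ.toAlgebra
  have hm : multSeries (hzn p n (0 : ℕ → B)).toFG p = PowerSeries.X ^ Nat.card k := by
    have h := map_multSeries κ D.H.toFG p
    rw [D.honda.mult, map_pow, PowerSeries.map_X, ← D.card] at h
    rw [← H_map hD κ]
    exact h.symm
  have hh : ∀ (s : InvSeries B) (i : ℕ), s • hzn p n (0 : ℕ → B) = hzn p n 0 →
      s.c i ∈ fixSub k B :=
    fun s i hs => coeff_mem_fixSub hm hm ((InvSeries.smul_eq_iff_isHom _ _ _).1 hs) _
  refine InvSeries.ext_c fun i =>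
    sub_eq_zero.1 (eq_zero_of_pow (ht' i) (Finite.one_lt_card (α := k)) ?_)
  exact mem_fixSub.1 (sub_mem (hh t i ht) (hh 1 i (one_smul _ _)))

end Law

theorem map_eq_iff {S : Type} [CommRing S] (J : Ideal S) {g g' : InvSeries S} :
    InvSeries.map (Ideal.Quotient.mk J) g = InvSeries.map (Ideal.Quotient.mk J) g' ↔
      ∀ i, g.c i - g'.c i ∈ J := by
  refine ⟨fun h i => ?_, fun h => InvSeries.ext_c fun i => ?_⟩
  · rw [← Ideal.Quotient.eq, ← InvSeries.c_map, ← InvSeries.c_map, h]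
  · rw [InvSeries.c_map, InvSeries.c_map, Ideal.Quotient.eq]
    exact h i

theorem exh_mem {S : Type} [CommRing S] {J : Ideal S} (h : ℕ) {c : ℕ} {y : Fin c → S}
    (hy : ∀ j, y j ∈ J) (i : ℕ) : exh h y i ∈ J := by
  unfold exh
  split_ifs
  exacts [hy _, J.zero_mem]

theorem map_mem {c : ℕ} {K S : Type} [Field K] [CommRing S] {J : Ideal S} (x : RR c K →+* S)
    (hx : ∀ j, x (X j) ∈ J) {f : RR c K} (hf : constantCoeff f = 0) : x f ∈ J := by
  simpa using Ev.map_mem_pow x hx (n := 1) (by simpa using Ev.mem_IX.2 hf)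

theorem phi_C {h c : ℕ} {G : Type} [Group G] [TopologicalSpace G] {K : Type} [Field K]
    (A : RG p h c G K) (γ : G) (a : K) : A.phi γ (C a) = C a := (A.phi γ).commutes a

theorem law_map {h c : ℕ} {G : Type} [Group G] [TopologicalSpace G] {K S : Type} [Field K]
    [CommRing S] (A : RG p h c G K) (γ : G) (x : RR c K →+* S) :
    InvSeries.map x (A.ser γ) • Fx p h (fun j => x (A.phi γ (X j))) = (FR p h c K).map x := by
  have e := congrArg (Law.map x) (A.law γ)
  rwa [InvSeries.map_smul, Law.map_map, FR, Fx_map] at e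

end Un

open Un

theorem unic (h1 : EXD p) (h2 : LTU p) : UNIC p := by
  intro n k _ hn card S _ J _ κ v v' g g' hv hv' e hg
  obtain ⟨D, hD⟩ := h1 n k hn card
  obtain ⟨s, hs⟩ : ∃ s, s = g'⁻¹ * g := ⟨_, rfl⟩
  have e1 : s • hzn p n v = hzn p n v' := by rw [hs, mul_smul, e, inv_smul_smul]
  have a1 : ∀ i, s.c i - (1 : InvSeries S).c i ∈ J.radical := by
    rw [← map_eq_iff, hs, map_mul, map_inv, (map_eq_iff _).2 hg, inv_mul_cancel, map_one]
  have a2 : ∀ i, s.c i - (1 : InvSeries S).c i ∈ J := by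
    have e0 : ∀ w : ℕ → S, (∀ i, 1 ≤ i → i < n → w i ∈ J) →
        (hzn p n w).map (Ideal.Quotient.mk J) = hzn p n 0 := fun w hw => by
      rw [hzn_map]
      exact hzn_congr p fun i h h' => Ideal.Quotient.eq_zero_iff_mem.2 (hw i h h')
    rw [← map_eq_iff, map_one]
    refine c_pow hD ((Ideal.Quotient.mk J).comp κ) ?_ fun i => ?_
    · have e2 := congrArg (Law.map (Ideal.Quotient.mk J)) e1
      rwa [InvSeries.map_smul, e0 v hv, e0 v' hv'] at e2
    · obtain ⟨m, hm⟩ := a1 i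
      refine ⟨m, ?_⟩
      rw [← map_one (InvSeries.map (Ideal.Quotient.mk J)), InvSeries.c_map, InvSeries.c_map,
        ← map_sub, ← map_pow, Ideal.Quotient.eq_zero_iff_mem]
      exact hm
  have key : ∀ N, (∀ i : Fin (n - 1), v (i + 1) - v' (i + 1) ∈ J ^ (N + 1)) ∧
      ∀ i, s.c i - (1 : InvSeries S).c i ∈ J ^ (N + 1) := fun N => by
    have hJ := map_mk_pow J (N + 1)
    have b : ∀ w : ℕ → S, (∀ i, 1 ≤ i → i < n → w i ∈ J) → ∀ i : Fin (n - 1),
        Ideal.Quotient.mk (J ^ (N + 1)) (w (i + 1)) ∈ J.map (Ideal.Quotient.mk (J ^ (N + 1))) :=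
      fun w hw i => Ideal.mem_map_of_mem _ (hw _ (by omega) (by omega))
    obtain ⟨x, x1, x2⟩ := exists_lift ((Ideal.Quotient.mk _).comp κ) hJ (b v hv)
    obtain ⟨x', y1, y2⟩ := exists_lift ((Ideal.Quotient.mk _).comp κ) hJ (b v' hv')
    have b1 : ∀ a, x (algebraMap k _ a) = x' (algebraMap k _ a) := fun a => by rw [x1, y1]
    obtain ⟨b2, b3⟩ := h2 n k D N _ _ ⟨_, hJ⟩ x x' (InvSeries.map (Ideal.Quotient.mk _) s)
      (InvSeries.map (Ideal.Quotient.mk _) 1) b1 (by
        rw [FE_map hD x (v := fun i => Ideal.Quotient.mk _ (v i)) x2,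
          FE_map hD x' (v := fun i => Ideal.Quotient.mk _ (v' i)) y2, ← hzn_map, ← hzn_map,
          ← InvSeries.map_smul, ← InvSeries.map_smul, e1, one_smul])
      (sub_mem_of b1 (fun i => x2 i ▸ b v hv i) fun i => y2 i ▸ b v' hv' i) fun i => by
        rw [InvSeries.c_map, InvSeries.c_map, ← map_sub]
        exact Ideal.mem_map_of_mem _ (a2 i)
    exact ⟨fun i => by rw [← Ideal.Quotient.eq, ← x2, ← y2, b2], (map_eq_iff _).1 b3⟩
  have le : ∀ N, J ^ (N + 1) ≤ J ^ N := fun N => Ideal.pow_le_pow_right N.le_succ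
  refine ⟨fun i h h' => ?_, ?_⟩
  · obtain ⟨i, rfl⟩ : ∃ m, i = m + 1 := ⟨i - 1, by omega⟩
    exact Ev.eq_of_mem J fun N => le N ((key N).1 ⟨i, by omega⟩)
  · have a3 : s = 1 := InvSeries.ext_c fun i => Ev.eq_of_mem J fun N => le N ((key N).2 i)
    rw [hs] at a3
    exact (inv_mul_eq_one.1 a3).symm

theorem actc (hU : UNIC p) : ACTC p := by
  intro n k _ D hD h c h1 hn K _ ι A hA S _ J _ x y g γ hx hy e hg
  subst hn
  obtain ⟨a1, a2⟩ := hU (h + c) k D.hh D.card S J (x.comp (C.comp ι)) (exh h y)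
    (exh h fun j => x (A.phi γ (X j))) g (InvSeries.map x (A.ser γ))
    (fun i _ _ => exh_mem h hy i)
    (fun i _ _ => exh_mem h (fun j => map_mem x hx (A.phi_X γ j)) i)
    (e.trans (law_map A γ x).symm) fun i => by
      have b := Ideal.le_radical (map_mem x hx (f := (A.ser γ).c i - C (ι (γ.cf (i + 1))))
        (by rw [map_sub, hA, constantCoeff_C, sub_self]))
      rw [map_sub] at b
      simpa using sub_mem (hg i) b
  refine ⟨fun j => ?_, a2⟩
  have b := a1 (h + j) (by omega) (by omega)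
  rwa [exh_add, exh_add] at b

theorem chg (hU : ACTC p) : CHG p := by
  intro n k _ D hD h c h' c' h1 hn h1' hn' K K' _ _ ι ι' A A' hA hA' l f hl hC hX hle γ
  have a1 : ∀ j, f (X j) ∈ Ev.IX (Fin c') K' := fun j => hX j ▸ exh_mem h' Ev.X_mem _
  have a2 : ∀ j, A'.ph γ (X j) ∈ Ev.IX (Fin c') K' := fun j => Ev.mem_IX.2 (A'.phi_X γ j)
  have a3 : (FR p h c K).map f = FR p h' c' K' := by
    rw [FR, Fx_map, FR, Fx, Fx, hn, hn']
    refine hzn_congr p fun i _ hi => ?_
    rcases lt_or_ge i h with h2 | h2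
    · rw [exh_lt _ h2, exh_lt _ (h2.trans_le hle)]
    · obtain ⟨j, rfl⟩ : ∃ j : Fin c, i = h + j := ⟨⟨i - h, by omega⟩, by simp; omega⟩
      rw [exh_add, hX]
  obtain ⟨b1, b2⟩ := hU n k D hD h c h1 hn K ι A hA _ (Ev.IX (Fin c') K') f
    (fun j => A'.ph γ (f (X j))) (A'.ser γ) γ a1
    (fun j => map_mem _ a2 (Ev.mem_IX.1 (a1 j)))
    (by rw [← Fx_map p h (A'.ph γ), ← Fx_map p h f, ← FR, a3, A'.law]) fun i =>
      Ideal.le_radical (Ev.mem_IX.2 (by
        rw [hC, map_sub, hA', constantCoeff_C, ← hl, RingHom.comp_apply, sub_self]))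
  refine ⟨Ev.hom_ext (Ev.IX (Fin c') K') (fun a => ?_) (fun j => (b1 j).symm)
    fun j => map_mem f a1 (A.phi_X γ j), b2.symm⟩
  change f (A.phi γ (C a)) = A'.phi γ (f (C a))
  rw [phi_C, hC, phi_C]

theorem Un.bij {n : ℕ} {k K : Type} [Field k] [Field K] {D : LTD p n k} {ι : k →+* K} {j : ℕ}
    {r : D.EJ j →+* RR (n - 1) K ⧸ Ev.IX (Fin (n - 1)) K ^ (j + 1)}
    (hr : IsR p D ι 1 (n - 1) j r) (hι : Function.Surjective ι) : Function.Bijective r := by
  have hX : ∀ i, r (EE.mk k (n - 1) j (MvPolynomial.X i)) = Ideal.Quotient.mk _ (X i) :=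
    fun i => by rw [hr.2, add_comm (i : ℕ), exh_add]
  constructor
  · let ι' := (RingEquiv.ofBijective ι ⟨ι.injective, hι⟩).symm
    have hy : ∀ i, (MvPolynomial.X i : MvPolynomial (Fin (n - 1)) k) ∈
      MvPolynomial.idealOfVars (Fin (n - 1)) k := fun i => Ideal.subset_span ⟨i, rfl⟩
    let σ : RR (n - 1) K →+* D.EJ j := Ev.evn (MvPolynomial.C.comp ι'.toRingHom) hy (j + 1)
    have hσ : ∀ P : MvPolynomial (Fin (n - 1)) K, σ P = EE.mk k (n - 1) j
        (MvPolynomial.eval₂Hom (MvPolynomial.C.comp ι'.toRingHom) MvPolynomial.X P) := fun P =>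
      congrArg (Ideal.quotientMap _ _ (Ev.pow_le (MvPolynomial.C.comp ι'.toRingHom) hy (j + 1)))
        ((truncTotalAlgHom (Fin (n - 1)) K (j + 1)).commutes P)
    have s1 : ∀ i, σ (X i) = EE.mk k (n - 1) j (MvPolynomial.X i) := fun i => by
      rw [← MvPolynomial.coe_X, hσ, MvPolynomial.eval₂Hom_X']
    have s2 : ∀ a, σ (C (ι a)) = algebraMap k _ a := fun a => by
      rw [← MvPolynomial.coe_C, hσ, MvPolynomial.eval₂Hom_C]
      exact congrArg (algebraMap k (D.EJ j)) (ι'.symm.symm_apply_apply a)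
    have s3 : ∀ f ∈ Ev.IX (Fin (n - 1)) K ^ (j + 1), σ f = 0 := fun f hf => by
      have h := Ev.map_mem_pow (J := EE.m k (n - 1) j) σ
        (fun i => s1 i ▸ Ideal.mem_map_of_mem _ (hy i)) hf
      rwa [EE.m_pow, Ideal.mem_bot] at h
    have e : (Ideal.Quotient.lift _ σ s3).comp r = RingHom.id _ :=
      ee_ext (fun a => by rw [RingHom.comp_apply, hr.1, Ideal.Quotient.lift_mk, s2]; rfl)
        fun i => by rw [RingHom.comp_apply, hX, Ideal.Quotient.lift_mk, s1]; rfl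
    exact Function.LeftInverse.injective (RingHom.congr_fun e)
  · intro z
    obtain ⟨f, rfl⟩ := Ideal.Quotient.mk_surjective z
    rw [Ideal.Quotient.eq.2 (Ev.sub_trunc_mem (j + 1) f)]
    generalize truncTotal (j + 1) f = P
    change _ ∈ r.range
    induction P using MvPolynomial.induction_on with
    | C a =>
      obtain ⟨a, rfl⟩ := hι a
      exact ⟨_, (hr.1 a).trans (by rw [MvPolynomial.coe_C])⟩
    | add P Q hP hQ =>
      rw [MvPolynomial.coe_add, map_add]
      exact add_mem hP hQ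
    | mul_X P i hP =>
      rw [MvPolynomial.coe_mul, map_mul, MvPolynomial.coe_X]
      exact mul_mem hP ⟨_, hX i⟩

theorem tree (hU : UNIC p) (h0 : ACT0 p) : TREE p := by
  intro n k _ D hD h c h1 hn K _ ι j
  have hJ := map_mk_pow (Ev.IX (Fin c) K) (j + 1)
  obtain ⟨q, hq⟩ : ∃ q, q = Ideal.Quotient.mk (Ev.IX (Fin c) K ^ (j + 1)) := ⟨_, rfl⟩
  rw [← hq] at hJ
  have a1 : ∀ i, q (exh h X i) ∈ (Ev.IX (Fin c) K).map q :=
    fun i => Ideal.mem_map_of_mem _ (exh_mem h Ev.X_mem i)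
  have a2 : ∀ i, q (X i) ∈ (Ev.IX (Fin c) K).map q :=
    fun i => Ideal.mem_map_of_mem _ (Ev.X_mem i)
  unfold IsR
  rw [← hq]
  refine ⟨exists_lift (q.comp (C.comp ι)) hJ fun i => a1 _, fun r hr => ⟨?_, ?_⟩⟩
  · rintro rfl hι
    obtain rfl : c = n - 1 := by omega
    subst hq
    exact bij hr hι
  intro A hA γ
  obtain ⟨b1, b2, b3, b4⟩ := h0 n k D j γ
  have := haus hJ
  have a3 : ∀ i, r (EE.mk k (n - 1) j (MvPolynomial.X i)) ∈ (Ev.IX (Fin c) K).map q :=
    fun i => hr.2 i ▸ a1 _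
  have a4 : ∀ {B : Type} [Zero B] (w : Fin (n - 1) → B) (i : Fin (n - 1)),
      ext1 w (i + 1) = w i := fun w i => dif_pos i.2
  obtain ⟨c1, c2⟩ := hU n k D.hh D.card _ ((Ev.IX (Fin c) K).map q) (q.comp (C.comp ι))
    (ext1 fun i => r (phi D j γ (EE.mk k (n - 1) j (MvPolynomial.X i))))
    (exh h fun i => q (A.phi γ (X i))) (InvSeries.map r (ser D j γ))
    (InvSeries.map q (A.ser γ))
    (fun i _ _ => by
      unfold ext1
      split_ifs
      · exact mem_of_π a3 (by rw [b3, EE.π_mk, MvPolynomial.constantCoeff_X])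
      · exact zero_mem _)
    (fun i _ _ => exh_mem h (fun j => map_mem q a2 (A.phi_X γ j)) i)
    (by
      have e := congrArg (Law.map r) b1
      rw [InvSeries.map_smul, Law.map_map, FE_map hD (r.comp (phi D j γ))
        (fun i => (a4 (fun i => r (phi D j γ (EE.mk k (n - 1) j (MvPolynomial.X i)))) i).symm),
        FE_map hD r (v := fun i => q (exh h X i)) hr.2] at e
      have e' := law_map A γ q
      rw [FR, Fx, Fx, hzn_map, hn] at e'
      exact e.trans e'.symm)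
    fun i => Ideal.le_radical (by
      have d1 := mem_of_π a3 (e := (ser D j γ).c i - algebraMap k _ (γ.cf (i + 1)))
        (by rw [map_sub, b4, EE.π_algebraMap, sub_self])
      have d2 := map_mem q a2 (f := (A.ser γ).c i - C (ι (γ.cf (i + 1))))
        (by rw [map_sub, hA, constantCoeff_C, sub_self])
      rw [map_sub, hr.1] at d1
      rw [map_sub] at d2
      simpa using sub_mem d1 d2)
  refine ⟨fun e e' he => ?_, fun i => by rw [← InvSeries.c_map, c2, InvSeries.c_map]⟩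
  have s3 : ∀ f ∈ Ev.IX (Fin c) K ^ (j + 1), q.comp (A.ph γ) f = 0 := fun f hf => by
    have d := Ev.map_mem_pow (q.comp (A.ph γ)) (fun i => map_mem q a2 (A.phi_X γ i)) hf
    rwa [hJ, Ideal.mem_bot] at d
  have s4 : ∀ f, Ideal.Quotient.lift _ _ s3 (q f) = q (A.phi γ f) := fun f => by
    subst hq
    rfl
  have e1 : r.comp (phi D j γ) = (Ideal.Quotient.lift _ _ s3).comp r :=
    ee_ext (fun a => by rw [RingHom.comp_apply, b2, RingHom.comp_apply, hr.1, s4, phi_C])
      fun i => by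
        have d := c1 (i + 1) (by omega) (by omega)
        rw [a4] at d
        rw [RingHom.comp_apply, d, RingHom.comp_apply, hr.2, s4]
        exact (exh_map (fun f => q (A.phi γ f)) (by simp) h X _).symm
  have e2 := RingHom.congr_fun e1 e
  rwa [RingHom.comp_apply, RingHom.comp_apply, he, s4] at e2

end Vale.Agent.P261Z.N
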