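import Vale.Agent.P261Z.N.Log
import Vale.Agent.P261Z.N.Cart
import Vale.Agent.P261Z.N.Crv
import Vale.Agent.P261Z.N.Hom0
import Vale.Agent.P261Z.N.End
import Vale.Agent.P261Z.N.Ltd
import Vale.Agent.P261Z.N.Rgex
import Vale.Agent.P261Z.N.Uni

/-!
# All rows of block N, without hypotheses
-/

namespace Vale.Agent.P261Z.N.All

variable (p : ℕ) [hp : Fact p.Prime]

theorem pser : PSER p := N.pser p
theorem uniq : UNIQ p := N.uniq p
theorem cart : CART p := N.cart p
theorem cun : CUN p := N.cun p
theorem crv : CRV p := N.crv p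
theorem hom0 : HOM0 p := N.hom0 p (N.pser p) (N.cart p)
theorem hom : HOM p := N.hom_of p (hom0 p)
theorem lead : LEAD p := N.lead
theorem endo : END p := N.end_of (N.pser p) (hom p)
theorem exd : EXD p := N.exd (N.pser p)
theorem ltu : LTU p := N.ltu
theorem act0 : ACT0 p := N.act0
theorem coact : COACT p := N.coact
theorem act : ACT p := N.act
theorem unic : UNIC p := N.unic (exd p) (ltu p)
theorem actc : ACTC p := N.actc (unic p)
theorem chg : CHG p := N.chg (actc p)
theorem tree : TREE p := N.tree (unic p) (act0 p)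
theorem rgex : RGEX p := N.rgex (unic p)

end Vale.Agent.P261Z.N.All
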