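import Vale.Agent.P261Z.N.All
import Vale.Agent.P261Z.C2.Alg

/-! P261, block N: curves of matrices. -/

set_option linter.all false

namespace Vale.Agent.P261Z.N

open Vale.Agent.P217 Vale.Agent.P251.F Vale.Agent.P257.H80 _root_.P261 _root_.P261.C2 WittVector
  Matrix

variable {p : ℕ} [hp : Fact p.Prime] {S S' : Type} [CommRing S] [Pf p S] [CommRing S'] [Pf p S']
  {I I' I'' : Type} [Fintype I] [Fintype I'] [Fintype I''] {n n' : ℕ}

/-- `V y = A σ⁻¹ y` -/
noncomputable def Vm (A : Matrix I I (WittVector p S)) :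
    (I → WittVector p S) →+ (I → WittVector p S) where
  toFun y := A *ᵥ fun i => si p S (y i)
  map_zero' := by
    refine Eq.trans ?_ (mulVec_zero A)
    congr 1
    funext i
    exact map_zero (si p S)
  map_add' y z := by
    rw [← mulVec_add]
    congr 1
    funext i
    exact map_add _ _ _

theorem Vm_apply (A : Matrix I I (WittVector p S)) (y : I → WittVector p S) :
    Vm A y = A *ᵥ fun i => si p S (y i) := rfl

/-- the first basis vector -/
def e0 (hn : 1 ≤ n) (A : Type) [Zero A] [One A] : Fin n → A := Pi.single ⟨0, hn⟩ 1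

namespace Mt

theorem Vm_smul (A : Matrix I I (WittVector p S)) (w : WittVector p S) (y : I → WittVector p S) :
    Vm A (w • y) = WittVector.map (rt p S) w • Vm A y := by
  rw [Vm_apply, Vm_apply, ← mulVec_smul]
  congr 1
  funext i
  exact map_mul _ _ _

theorem Vm_single [DecidableEq I] (A : Matrix I I (WittVector p S)) (j : I) :
    Vm A (Pi.single j 1) = fun i => A i j := by
  have : (fun i => si p S ((Pi.single j 1 : I → WittVector p S) i)) = Pi.single j 1 := by
    funext i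
    rw [Pi.single_apply]
    split_ifs <;> simp
  rw [Vm_apply, this, mulVec_single_one]
  rfl

theorem map_mulVec {A B : Type} [CommRing A] [CommRing B] (f : A →+* B) (T : Matrix I' I A)
    (y : I → A) : (fun i => f ((T *ᵥ y) i)) = T.map f *ᵥ fun i => f (y i) :=
  funext fun i => RingHom.map_mulVec f T y i

theorem itw_vm {A : Matrix I I (WittVector p S)} {T : Matrix I I' (WittVector p S)}
    {A' : Matrix I' I' (WittVector p S)} (h : Itw A T A') (y : I' → WittVector p S) :
    Vm A (T *ᵥ y) = T *ᵥ Vm A' y := by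
  rw [Vm_apply, Vm_apply, map_mulVec, mulVec_mulVec, mulVec_mulVec, h]

theorem itw_iter {A : Matrix I I (WittVector p S)} {T : Matrix I I' (WittVector p S)}
    {A' : Matrix I' I' (WittVector p S)} (h : Itw A T A') (y : I' → WittVector p S) (i : ℕ) :
    (Vm A)^[i] (T *ᵥ y) = T *ᵥ (Vm A')^[i] y := by
  induction i with
  | zero => rfl
  | succ i ih => rw [Function.iterate_succ_apply', Function.iterate_succ_apply', ih, itw_vm h]

theorem itw_of [DecidableEq I'] {A : Matrix I I (WittVector p S)} {T : Matrix I I' (WittVector p S)}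
    {A' : Matrix I' I' (WittVector p S)}
    (h : ∀ j, Vm A (fun i => T i j) = T *ᵥ fun i => A' i j) : Itw A T A' := by
  ext1 i j
  exact congrFun (h j) i

theorem itw_mul {A : Matrix I I (WittVector p S)} {T : Matrix I I' (WittVector p S)}
    {A' : Matrix I' I' (WittVector p S)} {T' : Matrix I' I'' (WittVector p S)}
    {A'' : Matrix I'' I'' (WittVector p S)} (h : Itw A T A') (h' : Itw A' T' A'') :
    Itw A (T * T') A'' := by
  unfold Itw at *
  rw [Matrix.map_mul, ← Matrix.mul_assoc, h, Matrix.mul_assoc, h', Matrix.mul_assoc]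

theorem itw_one [DecidableEq I] (A : Matrix I I (WittVector p S)) : Itw A 1 A := by
  unfold Itw
  rw [Matrix.map_one _ (map_zero _) (map_one _), Matrix.mul_one, Matrix.one_mul]

theorem itw_inv [DecidableEq I] [DecidableEq I'] {A : Matrix I I (WittVector p S)}
    {T : Matrix I I' (WittVector p S)} {A' : Matrix I' I' (WittVector p S)}
    {T' : Matrix I' I (WittVector p S)} (h : Itw A T A') (h1 : T * T' = 1) (h2 : T' * T = 1) :
    Itw A' T' A := by
  unfold Itw at *
  rw [← Matrix.one_mul A', ← h2, Matrix.mul_assoc T', ← h, Matrix.mul_assoc, Matrix.mul_assoc,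
    ← Matrix.map_mul, h1, Matrix.map_one _ (map_zero _) (map_one _), Matrix.mul_one]

theorem itw_map (φ : S →+* S') {A : Matrix I I (WittVector p S)} {T : Matrix I I' (WittVector p S)}
    {A' : Matrix I' I' (WittVector p S)} (h : Itw A T A') :
    Itw (A.map (wm p φ)) (T.map (wm p φ)) (A'.map (wm p φ)) := by
  unfold Itw at *
  rw [← Matrix.map_mul, ← h, Matrix.map_mul]
  congr 1
  ext1 i j
  exact (wm_si φ _).symm

theorem cm_lt (hn : 1 ≤ n) (c : Fin n → WittVector p S) (i : ℕ) (hi : i < n) :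
    (Vm (Cm c))^[i] (e0 hn _) = Pi.single ⟨i, hi⟩ 1 := by
  induction i with
  | zero => rfl
  | succ i ih =>
    rw [Function.iterate_succ_apply', ih (by omega), Vm_single]
    funext l
    rw [Cm, of_apply, Pi.single_apply, if_neg (show ¬ i + 1 = n by omega)]
    simp only [Fin.ext_iff]

theorem cm_top (hn : 1 ≤ n) (c : Fin n → WittVector p S) : (Vm (Cm c))^[n] (e0 hn _) = c := by
  obtain ⟨n, rfl⟩ : ∃ m, n = m + 1 := ⟨n - 1, by omega⟩
  rw [Function.iterate_succ_apply', cm_lt hn c n n.lt_succ_self, Vm_single]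
  funext l
  rw [Cm, of_apply, if_neg (show ¬ (l : ℕ) = n + 1 by omega), if_pos rfl]

theorem cm_bas (hn : 1 ≤ n) (c : Fin n → WittVector p S) :
    (fun i : Fin n => (Vm (Cm c))^[i] (e0 hn _)) = Pi.basisFun (WittVector p S) (Fin n) := by
  funext i
  rw [cm_lt hn c i i.2, Pi.basisFun_apply]

theorem nfr_mulVec {A : Matrix I I (WittVector p S)} {T : Matrix I I' (WittVector p S)}
    {A' : Matrix I' I' (WittVector p S)} (h : Itw A T A') (u : ℕ → S) (y : I' → WittVector p S) :
    nfr p n u (Vm A) (T *ᵥ y) = T *ᵥ nfr p n u (Vm A') y := by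
  rw [nfr, nfr, mulVec_add, itw_iter h, mulVec_sum]
  congr 1
  refine Finset.sum_congr rfl fun i _ => ?_
  rw [itw_iter h, mulVec_smul]

theorem sum_au (hn : 1 ≤ n) (u : ℕ → S) {M : Type} [AddCommGroup M] [Module (WittVector p S) M]
    (z : ℕ → M) : ∑ i : Fin n, (if (i : ℕ) = 0 then (p : WittVector p S) else -tm p (u i)) • z i =
      p • z 0 - ∑ i ∈ Finset.Ico 1 n, tm p (u i) • z i := by
  rw [Fin.sum_univ_eq_sum_range (fun i => (if i = 0 then (p : WittVector p S) else -tm p (u i)) •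
    z i), Finset.range_eq_Ico, Finset.sum_eq_sum_Ico_succ_bot hn, if_pos rfl, Nat.cast_smul_eq_nsmul,
    sub_eq_add_neg, ← Finset.sum_neg_distrib]
  congr 1
  refine Finset.sum_congr rfl fun i hi => ?_
  rw [if_neg (by have := (Finset.mem_Ico.1 hi).1; omega), neg_smul]

end Mt

open Mt

/-- the standard module in normal form -/
theorem nf_std (hn : 1 ≤ n) (u : ℕ → S) : NF p n u (Vm (Au p n u)) (e0 hn _) where
  pos := hn
  semi := Vm_smul _
  li := by rw [Au, cm_bas]; exact (Pi.basisFun _ _).linearIndependent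
  sp := by rw [Au, cm_bas]; exact (Pi.basisFun _ _).span_eq.ge
  rel := by
    have h := sum_au hn u fun i => (Vm (Au p n u))^[i] (e0 hn (WittVector p S))
    rw [nfr, ← sub_eq_iff_eq_add]
    refine h.symm.trans ?_
    rw [Au, cm_top]
    have e := fun i => congrFun (cm_bas hn
      fun i : Fin n => if (i : ℕ) = 0 then (p : WittVector p S) else -tm p (u i)) i
    simp only [e]
    exact (Pi.basisFun _ _).sum_repr _

/-- the matrix with the columns `V ^ j y` -/
noncomputable def cols (n : ℕ) (A : Matrix I I (WittVector p S)) (y : I → WittVector p S) :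
    Matrix I (Fin n) (WittVector p S) := Matrix.of fun i j => (Vm A)^[j] y i

theorem cols_e0 (hn : 1 ≤ n) (A : Matrix I I (WittVector p S)) (y : I → WittVector p S) :
    cols n A y *ᵥ e0 hn _ = y := by
  rw [e0, mulVec_single_one]
  rfl

theorem itw_cols (hn : 1 ≤ n) {A : Matrix I I (WittVector p S)} {u : ℕ → S}
    {y : I → WittVector p S} (h : p • y = nfr p n u (Vm A) y) : Itw A (cols n A y) (Au p n u) := by
  refine itw_of fun j => ?_
  have e : ∀ z : Fin n → WittVector p S, cols n A y *ᵥ z = ∑ i : Fin n, z i • (Vm A)^[i] y := by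
    intro z
    funext l
    simp [cols, mulVec, dotProduct, mul_comm]
  change Vm A ((Vm A)^[j] y) = _
  rw [← Function.iterate_succ_apply' (Vm A), e]
  by_cases hj : (j : ℕ) + 1 = n
  · have : ∀ i : Fin n, Au p n u i j =
        if (i : ℕ) = 0 then (p : WittVector p S) else -tm p (u i) := fun i => by
      rw [Au, Cm, of_apply, if_neg (by omega), if_pos hj]
    simp only [this]
    rw [sum_au hn u fun i => (Vm A)^[i] y, Nat.succ_eq_add_one, hj, eq_sub_iff_add_eq]
    exact h.symm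
  · rw [Finset.sum_eq_single ⟨j + 1, by omega⟩]
    · rw [Au, Cm, of_apply, if_pos rfl, one_smul]
    · intro i _ hi
      rw [Au, Cm, of_apply, if_neg (fun e => hi (Fin.ext e)), if_neg hj, zero_smul]
    · simp

theorem itw_ext (hn : 1 ≤ n) {A : Matrix I I (WittVector p S)} {c : Fin n → WittVector p S}
    {T : Matrix I (Fin n) (WittVector p S)} (h : Itw A T (Cm c)) : T = cols n A (T *ᵥ e0 hn _) := by
  ext1 i j
  rw [cols, of_apply, itw_iter h, cm_lt hn c j j.2, mulVec_single_one]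
  rfl

theorem itw_rel (hn : 1 ≤ n) {A : Matrix I I (WittVector p S)} {u : ℕ → S}
    {T : Matrix I (Fin n) (WittVector p S)} (h : Itw A T (Au p n u)) :
    p • (T *ᵥ e0 hn _) = nfr p n u (Vm A) (T *ᵥ e0 hn _) := by
  rw [nfr_mulVec h, ← (nf_std hn u).rel]
  exact (map_nsmul T.mulVecLin p _).symm

/-- the curve of a vector -/
noncomputable def cv (hn : 1 ≤ n) (u : ℕ → S) : (Fin n → WittVector p S) →+ Cv (lw p n u) :=
  (All.crv p S _ n u _ _ (nf_std hn u)).choose

theorem cv_crv (hn : 1 ≤ n) (u : ℕ → S) : IsCrv p _ (Vm (Au p n u)) (cv hn u) :=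
  (All.crv p S _ n u _ _ (nf_std hn u)).choose_spec.1

theorem cv_e0 (hn : 1 ≤ n) (u : ℕ → S) : cv hn u (e0 hn _) = xx _ :=
  (All.crv p S _ n u _ _ (nf_std hn u)).choose_spec.2.1

theorem cv_lead (hn : 1 ≤ n) (u : ℕ → S) (y : Fin n → WittVector p S) :
    PowerSeries.coeff 1 (cv hn u y).ser = (y ⟨0, hn⟩).coeff 0 := by
  have e : (nf_std hn u).bas = Pi.basisFun (WittVector p S) (Fin n) := by
    ext1 i
    rw [NF.bas, Module.Basis.mk_apply]
    exact congrFun (cm_bas hn _) i
  rw [All.lead p S _ n u _ _ (nf_std hn u) _ _ (cv_crv hn u) (cv_e0 hn u), e]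
  rfl

theorem lw_map (φ : S →+* S') (n : ℕ) (u : ℕ → S) :
    (lw p n u).map φ = lw p n fun i => φ (u i) := by
  rw [lw, hzn_map, lw]
  simp only [map_pow]

theorem cv_map (hn : 1 ≤ n) (φ : S →+* S') (u : ℕ → S) (y : Fin n → WittVector p S) :
    (cv hn (fun i => φ (u i)) fun i => wm p φ (y i)).ser = PowerSeries.map φ (cv hn u y).ser := by
  let w : (Fin n → WittVector p S) →+ (Fin n → WittVector p S') :=
    (wm p φ).toAddMonoidHom.compLeft _
  have h := All.cun p S _ n _ _ (nf_std hn u).sp S' Ch.char φ _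
    ((cv hn fun i => φ (u i)).comp w) ((zmap φ (lw_map φ n u)).comp (cv hn u))
    (fun a y => ?_) (fun a y => ?_) (fun y => ?_) (fun y => ?_) ?_
  · exact congrArg Cv.ser (DFunLike.congr_fun h y)
  · rw [AddMonoidHom.comp_apply, AddMonoidHom.comp_apply, ← (cv_crv hn _).tei]
    congr 1
    funext i
    exact (map_mul (wm p φ) _ _).trans (congrArg (· * _) (map_teichmuller p φ a))
  · rw [AddMonoidHom.comp_apply, AddMonoidHom.comp_apply, (cv_crv hn _).tei, zmap_mon]
  · rw [AddMonoidHom.comp_apply, AddMonoidHom.comp_apply, ← (cv_crv hn _).ver]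
    congr 1
    refine (map_mulVec (wm p φ) _ _).trans ?_
    rw [Au_map, Vm_apply]
    congr 1
    funext i
    exact wm_si φ _
  · rw [AddMonoidHom.comp_apply, AddMonoidHom.comp_apply, (cv_crv hn _).ver, zmap_mon, map_one]
  · have : w (e0 hn _) = e0 hn _ := by
      funext i
      change wm p φ (e0 hn _ i) = _
      rw [e0, e0, Pi.single_apply, Pi.single_apply]
      split_ifs <;> simp
    rw [AddMonoidHom.comp_apply, AddMonoidHom.comp_apply, this, cv_e0, cv_e0, zmap_xx]

/-- the curve of the first column -/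
noncomputable def cT (hn : 1 ≤ n) (hn' : 1 ≤ n') (u : ℕ → S)
    (T : Matrix (Fin n) (Fin n') (WittVector p S)) : PowerSeries S :=
  (cv hn u (T *ᵥ e0 hn' _)).ser

variable (hn : 1 ≤ n) (hn' : 1 ≤ n') {u u' : ℕ → S} {T : Matrix (Fin n) (Fin n') (WittVector p S)}

theorem cT_cc : PowerSeries.constantCoeff (cT hn hn' u T) = 0 := Cv.cc _

theorem cT_one : cT hn hn u 1 = PowerSeries.X := by
  rw [cT, one_mulVec, cv_e0, xx_ser]

theorem cT_lead : PowerSeries.coeff 1 (cT hn hn' u T) = (T ⟨0, hn⟩ ⟨0, hn'⟩).coeff 0 := by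
  rw [cT, cv_lead, e0, mulVec_single_one]
  rfl

theorem cT_map (φ : S →+* S') : cT hn hn' (fun i => φ (u i)) (T.map (wm p φ)) =
    PowerSeries.map φ (cT hn hn' u T) := by
  rw [cT, cT, ← cv_map, e0, e0, mulVec_single_one, mulVec_single_one]
  rfl

theorem cT_hom (h : Itw (Au p n u) T (Au p n' u')) :
    IsHom (lw p n' u').toFG (lw p n u).toFG (cT hn hn' u T) :=
  All.hom p S _ n u _ _ (nf_std hn u) _ (cv_crv hn u) (cv_e0 hn u) n' u' _ hn'
    (congrArg _ (itw_rel hn' h))

theorem cv_mulVec (h : Itw (Au p n u) T (Au p n' u')) (y : Fin n' → WittVector p S) :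
    (cv hn u (T *ᵥ y)).ser = PowerSeries.subst (cv hn' u' y).ser (cT hn hn' u T) := by
  have e := All.cun p S _ n' _ _ (nf_std hn' u').sp S Ch.char (RingHom.id S) _
    ((cv hn u).comp T.mulVecLin.toAddMonoidHom) ((hmap (cT_hom hn hn' h)).comp (cv hn' u'))
    (fun a y => ?_) (fun a y => ?_) (fun y => ?_) (fun y => ?_) ?_
  · exact congrArg Cv.ser (DFunLike.congr_fun e y)
  · exact (congrArg (cv hn u) (mulVec_smul T _ y)).trans ((cv_crv hn u).tei a _)
  · rw [AddMonoidHom.comp_apply, AddMonoidHom.comp_apply, (cv_crv hn' _).tei, hmap_mon]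
    rfl
  · exact (congrArg (cv hn u) (itw_vm h y).symm).trans ((cv_crv hn u).ver _)
  · rw [AddMonoidHom.comp_apply, AddMonoidHom.comp_apply, (cv_crv hn' _).ver, hmap_mon]
  · rw [AddMonoidHom.comp_apply, AddMonoidHom.comp_apply, cv_e0]
    exact Cv.ext (hmap_xx _).symm

theorem cT_mul {n'' : ℕ} (hn'' : 1 ≤ n'') (h : Itw (Au p n u) T (Au p n' u'))
    (T' : Matrix (Fin n') (Fin n'') (WittVector p S)) :
    cT hn hn'' u (T * T') = PowerSeries.subst (cT hn' hn'' u' T') (cT hn hn' u T) := by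
  rw [cT, ← mulVec_mulVec, cv_mulVec hn hn' h]
  rfl

theorem cT_unit {T T' : Matrix (Fin n) (Fin n) (WittVector p S)}
    (h : Itw (Au p n u) T (Au p n u')) (h1 : T * T' = 1) :
    IsUnit (PowerSeries.coeff 1 (cT hn hn u T)) := by
  have e := congrArg (PowerSeries.coeff 1) (cT_mul hn hn hn h T')
  rw [h1, cT_one, coeff_one_subst (cT_cc hn hn), PowerSeries.coeff_one_X] at e
  exact IsUnit.of_mul_eq_one_right _ e.symm

/-- the invertible series of an isomorphism -/
noncomputable def iT (u : ℕ → S) (T : Matrix (Fin n) (Fin n) (WittVector p S))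
    (h : IsUnit ((T ⟨0, hn⟩ ⟨0, hn⟩).coeff 0)) : InvSeries S :=
  ⟨cT hn hn u T, cT_cc hn hn, by rwa [cT_lead]⟩

theorem iT_smul {T : Matrix (Fin n) (Fin n) (WittVector p S)} (h : Itw (Au p n u) T (Au p n u'))
    (h1 : IsUnit ((T ⟨0, hn⟩ ⟨0, hn⟩).coeff 0)) : iT hn u T h1 • lw p n u' = lw p n u :=
  (InvSeries.smul_eq_iff_isHom _ _ _).2 (cT_hom hn hn h)

/-! ### height `n` -/

theorem cv_inj : Function.Injective (cv hn (0 : ℕ → S)) :=
  (All.endo p S _ n _ _ (nf_std hn 0) _ (cv_crv hn 0) (cv_e0 hn 0)).1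

theorem cT_inj {c : Fin n' → WittVector p S} {T T' : Matrix (Fin n) (Fin n') (WittVector p S)}
    (h : Itw (Au p n 0) T (Cm c)) (h' : Itw (Au p n 0) T' (Cm c))
    (e : cT hn hn' 0 T = cT hn hn' 0 T') : T = T' := by
  rw [itw_ext hn' h, itw_ext hn' h', cv_inj hn (Cv.ext e)]

theorem cT_surj {g : PowerSeries S}
    (hg : IsHom (lw p n (0 : ℕ → S)).toFG (lw p n (0 : ℕ → S)).toFG g) :
    ∃ T, Itw (Au p n 0) T (Au p n 0) ∧ cT hn hn 0 T = g := by
  obtain ⟨y, h1, h2⟩ :=
    (All.endo p S _ n _ _ (nf_std hn 0) _ (cv_crv hn 0) (cv_e0 hn 0)).2 g hg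
  refine ⟨cols n _ y, itw_cols hn (h1.trans (En.nfr_zero y).symm), ?_⟩
  rw [cT, cols_e0, h2]

theorem exists_inv {T : Matrix (Fin n) (Fin n) (WittVector p S)} (h : Itw (Au p n 0) T (Au p n 0))
    (h1 : IsUnit ((T ⟨0, hn⟩ ⟨0, hn⟩).coeff 0)) :
    ∃ T', Itw (Au p n 0) T' (Au p n 0) ∧ T * T' = 1 ∧ T' * T = 1 := by
  have e := iT_smul hn h h1
  rw [← eq_inv_smul_iff] at e
  obtain ⟨T', h', e'⟩ := cT_surj hn ((InvSeries.smul_eq_iff_isHom _ _ _).1 e.symm)
  have h2 : T * T' = 1 := by
    refine cT_inj hn hn (itw_mul h h') (itw_one _) ?_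
    rw [cT_mul hn hn hn h, e', cT_one]
    exact congrArg InvSeries.val (mul_inv_cancel (iT hn 0 T h1))
  exact ⟨T', h', h2, mul_eq_one_comm.1 h2⟩

end Vale.Agent.P261Z.N
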