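import Vale.Agent.P257.H80.HazVV
import Vale.Agent.P257.H80.HazWt
import Vale.Agent.P251.F.Ord

/-! P261, block N: curves in formal group laws, the laws of Hazewinkel. -/

set_option linter.all false

namespace Vale.Agent.P261Z.N

open Vale.Agent.P217 Vale.Agent.P251.F Vale.Agent.P257.H80

variable {S T : Type} [CommRing S] [CommRing T]

/-- curves in `F` -/
abbrev Cv (F : Law S) : Type := ZPt F.toFG Unit

/-- the series of a curve -/
def Cv.ser {F : Law S} (z : Cv F) : PowerSeries S := ZPt.val z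

theorem Cv.cc {F : Law S} (z : Cv F) : PowerSeries.constantCoeff z.ser = 0 :=
  ZPt.constantCoeff_val z

theorem Cv.ext {F : Law S} {z z' : Cv F} (h : z.ser = z'.ser) : z = z' := ZPt.ext h

/-- the curve of a series -/
def Cv.mk (F : Law S) (s : PowerSeries S) (hs : PowerSeries.constantCoeff s = 0) : Cv F :=
  ZPt.mk F.toFG s hs

@[simp] theorem Cv.ser_mk (F : Law S) (s : PowerSeries S)
    (hs : PowerSeries.constantCoeff s = 0) : (Cv.mk F s hs).ser = s := rfl

theorem Cv.ser_add {F : Law S} (a b : Cv F) :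
    (a + b).ser = MvPowerSeries.subst ![a.ser, b.ser] F.ps := rfl

@[simp] theorem Cv.ser_zero {F : Law S} : (0 : Cv F).ser = 0 := rfl

theorem Cv.ser_nsmul {F : Law S} (m : ℕ) (a : Cv F) :
    (m • a).ser = PowerSeries.subst a.ser (multSeries F.toFG m) := ZPt.val_nsmul m a

/-- the curve `x` -/
noncomputable def xx (F : Law S) : Cv F := Cv.mk F PowerSeries.X PowerSeries.constantCoeff_X

@[simp] theorem xx_ser (F : Law S) : (xx F).ser = PowerSeries.X := rfl

/-- reparametrisation `z ↦ z (s x)` -/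
noncomputable def rep (F : Law S) (s : PowerSeries S) (hs : PowerSeries.constantCoeff s = 0) :
    Cv F →+ Cv F where
  toFun z := Cv.mk F (PowerSeries.subst s z.ser)
    (PowerSeries.constantCoeff_subst_eq_zero hs _ z.cc)
  map_zero' := Cv.ext (ps_subst_zero (hasSubst_of_cc hs))
  map_add' a b := Cv.ext
    (HT_subst_pair_comp a.cc b.cc (PowerSeries.HasSubst.const (hasSubst_of_cc hs)) F.ps)

theorem rep_ser (F : Law S) (s : PowerSeries S) (hs : PowerSeries.constantCoeff s = 0)
    (z : Cv F) : (rep F s hs z).ser = PowerSeries.subst s z.ser := rfl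

theorem rep_xx (F : Law S) (s : PowerSeries S) (hs : PowerSeries.constantCoeff s = 0) :
    rep F s hs (xx F) = Cv.mk F s hs := Cv.ext (PowerSeries.subst_X (hasSubst_of_cc hs))

theorem rep_rep (F : Law S) {s t : PowerSeries S} (hs : PowerSeries.constantCoeff s = 0)
    (ht : PowerSeries.constantCoeff t = 0) (z : Cv F) :
    rep F s hs (rep F t ht z) =
      rep F (PowerSeries.subst s t) (PowerSeries.constantCoeff_subst_eq_zero hs _ ht) z :=
  Cv.ext (psubst_comp ht hs z.ser)

theorem rep_congr (F : Law S) {s t : PowerSeries S} (hs : PowerSeries.constantCoeff s = 0)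
    (ht : PowerSeries.constantCoeff t = 0) (h : s = t) : rep F s hs = rep F t ht := by
  subst h; rfl

theorem cc_mon (a : S) {d : ℕ} (hd : d ≠ 0) :
    PowerSeries.constantCoeff (PowerSeries.C a * PowerSeries.X ^ d : PowerSeries S) = 0 := by
  rw [map_mul, map_pow, PowerSeries.constantCoeff_X, zero_pow hd, mul_zero]

variable (p : ℕ) [hp : Fact p.Prime]

/-- `z ↦ z (a x ^ (p ^ i))` -/
noncomputable def mon (F : Law S) (a : S) (i : ℕ) : Cv F →+ Cv F :=
  rep F (PowerSeries.C a * PowerSeries.X ^ p ^ i) (cc_mon a (pow_ne_zero i hp.out.ne_zero))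

theorem mon_ser (F : Law S) (a : S) (i : ℕ) (z : Cv F) : (mon p F a i z).ser =
    PowerSeries.subst (PowerSeries.C a * PowerSeries.X ^ p ^ i : PowerSeries S) z.ser := rfl

theorem mon_xx_ser (F : Law S) (a : S) (i : ℕ) :
    (mon p F a i (xx F)).ser = PowerSeries.C a * PowerSeries.X ^ p ^ i := by
  rw [mon, rep_xx]; rfl

theorem mon_mon (F : Law S) (a b : S) (i j : ℕ) (z : Cv F) :
    mon p F a i (mon p F b j z) = mon p F (b * a ^ p ^ j) (i + j) z := by
  have h := hasSubst_of_cc (cc_mon a (pow_ne_zero i hp.out.ne_zero))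
  rw [mon, mon, rep_rep, mon]
  congr 1
  apply rep_congr
  rw [PowerSeries.subst_mul h, PowerSeries.subst_pow h, PowerSeries.subst_X h,
    PowerSeries.subst_C, mul_pow, ← pow_mul, ← pow_add, map_mul, map_pow, mul_assoc]
  rfl

theorem mon_one_zero (F : Law S) (z : Cv F) : mon p F 1 0 z = z := by
  apply Cv.ext
  rw [mon_ser, pow_zero, pow_one, map_one, one_mul, PowerSeries.X_subst]

theorem mon_zero (F : Law S) (i : ℕ) (z : Cv F) : mon p F 0 i z = 0 := by
  apply Cv.ext
  rw [mon_ser, map_zero, zero_mul]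
  exact PowerSeries.subst_zero_of_constantCoeff_zero z.cc

/-- base change of curves -/
noncomputable def zmap (φ : S →+* T) {F : Law S} {G : Law T} (h : F.map φ = G) :
    Cv F →+ Cv G where
  toFun z := Cv.mk G (PowerSeries.map φ z.ser) (by
    rw [← PowerSeries.coeff_zero_eq_constantCoeff_apply, PowerSeries.coeff_map,
      PowerSeries.coeff_zero_eq_constantCoeff_apply, z.cc, map_zero])
  map_zero' := Cv.ext (map_zero _)
  map_add' a b := by
    subst h
    exact Cv.ext (map_cons_subst φ F.toFG a.cc b.cc)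

omit hp in
theorem zmap_ser (φ : S →+* T) {F : Law S} {G : Law T} (h : F.map φ = G) (z : Cv F) :
    (zmap φ h z).ser = PowerSeries.map φ z.ser := rfl

omit hp in
theorem zmap_xx (φ : S →+* T) {F : Law S} {G : Law T} (h : F.map φ = G) :
    zmap φ h (xx F) = xx G := Cv.ext (PowerSeries.map_X φ)

theorem zmap_mon (φ : S →+* T) {F : Law S} {G : Law T} (h : F.map φ = G) (a : S) (i : ℕ)
    (z : Cv F) : zmap φ h (mon p F a i z) = mon p G (φ a) i (zmap φ h z) := by
  apply Cv.ext
  rw [zmap_ser, mon_ser, mon_ser, zmap_ser]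
  refine (PowerSeries.map_subst
    (hasSubst_of_cc (cc_mon a (pow_ne_zero i hp.out.ne_zero))) (h := φ) z.ser).trans ?_
  congr 1
  change PowerSeries.map φ _ = _
  rw [map_mul, map_pow, PowerSeries.map_C, PowerSeries.map_X]

/-- the map of curves given by a homomorphism -/
noncomputable def hmap {F G : Law S} {g : PowerSeries S} (h : IsHom F.toFG G.toFG g) :
    Cv F →+ Cv G := ZPt.hom h

omit hp in
theorem hmap_ser {F G : Law S} {g : PowerSeries S} (h : IsHom F.toFG G.toFG g) (z : Cv F) :
    (hmap h z).ser = PowerSeries.subst z.ser g := rfl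

omit hp in
theorem hmap_xx {F G : Law S} {g : PowerSeries S} (h : IsHom F.toFG G.toFG g) :
    (hmap h (xx F)).ser = g := PowerSeries.X_subst g

theorem hmap_mon {F G : Law S} {g : PowerSeries S} (h : IsHom F.toFG G.toFG g) (a : S) (i : ℕ)
    (z : Cv F) : hmap h (mon p F a i z) = mon p G a i (hmap h z) :=
  Cv.ext (psubst_comp z.cc (cc_mon a (pow_ne_zero i hp.out.ne_zero)) g).symm

/-! ### The laws -/

/-- the law of Hazewinkel with parameters `v 0 = v_1, v 1 = v_2, …` -/
noncomputable def hz (v : ℕ → S) : Law S :=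
  (haz p).map (MvPolynomial.eval₂Hom (Int.castRingHom S) v)

theorem hz_map (φ : S →+* T) (v : ℕ → S) : (hz p v).map φ = hz p fun i => φ (v i) := by
  rw [hz, Law.map_map, hz]
  congr 1
  refine MvPolynomial.ringHom_ext (fun r => ?_) fun i => ?_
  · simp
  · simp

/-- the parameters `v_1, …, v_(n-1), 1, 0, 0, …` -/
def par (n : ℕ) (v : ℕ → S) (i : ℕ) : S :=
  if i + 1 < n then v (i + 1) else if i + 1 = n then 1 else 0

/-- the law with `[p] x = v 1 x^p + … + v (n-1) x^(p^(n-1)) + x^(p^n)`, formal sum -/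
noncomputable def hzn (n : ℕ) (v : ℕ → S) : Law S := hz p (par n v)

theorem hzn_map (φ : S →+* T) (n : ℕ) (v : ℕ → S) :
    (hzn p n v).map φ = hzn p n fun i => φ (v i) := by
  rw [hzn, hz_map, hzn]
  congr 1
  funext i
  unfold par
  split_ifs <;> simp

theorem hzn_congr {n : ℕ} {v v' : ℕ → S} (h : ∀ i, 1 ≤ i → i < n → v i = v' i) :
    hzn p n v = hzn p n v' := by
  unfold hzn
  congr 1
  funext i
  unfold par
  split_ifs with h1
  · exact h _ (by omega) h1
  all_goals rfl

/-! ### Orders -/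

/-- congruence of curves modulo `x ^ d` -/
def Cg {F : Law S} (d : ℕ) (a b : Cv F) : Prop :=
  ∀ i < d, PowerSeries.coeff i a.ser = PowerSeries.coeff i b.ser

omit hp in
theorem Cg.refl {F : Law S} (d : ℕ) (a : Cv F) : Cg d a a := fun _ _ => rfl

omit hp in
theorem Cg.symm {F : Law S} {d : ℕ} {a b : Cv F} (h : Cg d a b) : Cg d b a :=
  fun i hi => (h i hi).symm

omit hp in
theorem Cg.trans {F : Law S} {d : ℕ} {a b c : Cv F} (h : Cg d a b) (h' : Cg d b c) : Cg d a c :=
  fun i hi => (h i hi).trans (h' i hi)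

omit hp in
theorem Cg.mono {F : Law S} {d d' : ℕ} {a b : Cv F} (h : Cg d a b) (h' : d' ≤ d) : Cg d' a b :=
  fun i hi => h i (hi.trans_le h')

omit hp in
theorem Cg.add {F : Law S} {d : ℕ} {a b a' b' : Cv F} (h : Cg d a a') (h' : Cg d b b') :
    Cg d (a + b) (a' + b') := by
  intro i hi
  refine coeff_subst_congr (hasSubst_cons a.cc b.cc) (hasSubst_cons a'.cc b'.cc) ?_ _ i hi
  intro s j hj
  fin_cases s
  · exact h j hj
  · exact h' j hj

omit hp in
theorem Cg.eq {F : Law S} {a b : Cv F} (h : ∀ d, Cg d a b) : a = b :=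
  Cv.ext (PowerSeries.ext fun i => h (i + 1) i i.lt_succ_self)

omit hp in
theorem cg_one {F : Law S} (a b : Cv F) : Cg 1 a b := by
  intro i hi
  obtain rfl : i = 0 := by omega
  rw [PowerSeries.coeff_zero_eq_constantCoeff_apply, PowerSeries.coeff_zero_eq_constantCoeff_apply,
    a.cc, b.cc]

omit hp in
theorem cg_iff {F : Law S} {d : ℕ} {a b : Cv F} :
    Cg d a b ↔ PowerSeries.X ^ d ∣ a.ser - b.ser := by
  rw [PowerSeries.X_pow_dvd_iff]
  simp only [map_sub, sub_eq_zero]
  rfl

omit hp in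
theorem mem_ordI_unit {d : ℕ} {f : PowerSeries S} :
    f ∈ ordI Unit S d ↔ ∀ i < d, PowerSeries.coeff i f = 0 := by
  constructor
  · intro h i hi
    exact h (Finsupp.single () i) (by simpa using hi)
  · intro h e he
    rw [Finsupp.unique_single e]
    refine h _ ?_
    rw [Finsupp.unique_single e] at he
    simpa using he

omit hp in
theorem cg_iff_ordI {F : Law S} {d : ℕ} {a b : Cv F} :
    Cg d a b ↔ a.ser - b.ser ∈ ordI Unit S d := by
  rw [mem_ordI_unit]
  simp only [map_sub, sub_eq_zero]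
  rfl

/-- In characteristic `p` multiplication by `p` raises the order of congruences. -/
theorem Cg.p_smul (hS : (p : S) = 0) {F : Law S} {d : ℕ} {a b : Cv F} (h : Cg d a b) :
    Cg (d + 1) (p • a) (p • b) := by
  rcases Nat.eq_zero_or_pos d with rfl | hd
  · exact cg_one _ _
  obtain ⟨d, rfl⟩ : ∃ e, d = e + 1 := ⟨d - 1, by omega⟩
  rw [cg_iff_ordI] at h ⊢
  have hF : multSeries F.toFG p ∈ ordI Unit S 2 := by
    rw [mem_ordI_unit]
    intro i hi
    interval_cases i
    · rw [PowerSeries.coeff_zero_eq_constantCoeff_apply, constantCoeff_multSeries]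
    · rw [coeff_one_multSeries, hS]
  rw [Cv.ser_nsmul, Cv.ser_nsmul]
  exact subst_sub_subst_mem_ordI (a := fun _ : Unit => a.ser) (b := fun _ : Unit => b.ser)
    (fun _ => mem_ordI_one.2 a.cc) (fun _ => mem_ordI_one.2 b.cc) (fun _ => h) hF

theorem cg_pow_smul (hS : (p : S) = 0) {F : Law S} (N : ℕ) (a : Cv F) :
    Cg (N + 1) (p ^ N • a) 0 := by
  induction N with
  | zero => exact cg_one _ _
  | succ N ih =>
    have := ih.p_smul p hS
    rwa [smul_zero, ← mul_smul, ← pow_succ'] at this

end Vale.Agent.P261Z.N
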