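import Vale.Agent.P261Z.N.Mat

/-! P261, block N: families over the group. -/

set_option linter.all false

namespace Vale.Agent.P261Z.N

open Vale.Agent.P217 Vale.Agent.P251.F Vale.Agent.P257.H80 _root_.P261 _root_.P261.C2
  LocallyConstant TensorProduct

variable {p : ℕ} [hp : Fact p.Prime]

/-! ### locally constant functions -/

section LC

variable {T : Type} [TopologicalSpace T] {k K S : Type} [CommRing k] [CommRing K] [CommRing S]

instance Fm.ch [Ch p K] : Ch p (LocallyConstant T K) := Ch.of_hom constRingHom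

instance Fm.pf [Pf p K] : Pf p (LocallyConstant T K) where
  bij := ⟨fun f g h => LocallyConstant.ext fun t => pow_p_inj (DFunLike.congr_fun h t),
    fun f => ⟨f.map (rt p K), LocallyConstant.ext fun t => rt_pow (f t)⟩⟩

/-- change of coefficients -/
noncomputable def lcm (T : Type) [TopologicalSpace T] (ι : k →+* K) :
    LocallyConstant T k →+* LocallyConstant T K := mapRingHom ι

theorem lc_ext [CompactSpace T] (ι : k →+* K) {θ θ' : LocallyConstant T K →+* S}
    (h1 : ∀ b, θ (const T b) = θ' (const T b)) (h2 : ∀ f, θ (lcm T ι f) = θ' (lcm T ι f)) :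
    θ = θ' := by
  letI := ι.toAlgebra
  refine RingHom.ext fun f => ?_
  obtain ⟨z, rfl⟩ := tensorLC_surjective (k := k) f
  induction z using TensorProduct.induction_on with
  | zero => simp
  | add a b ha hb => rw [map_add, map_add, map_add, ha, hb]
  | tmul b f =>
    have : tensorLC k K (b ⊗ₜ[k] f) = lcm T ι f * const T b := LocallyConstant.ext fun _ => rfl
    rw [this, map_mul, map_mul, h1, h2]

theorem lc_ex [CompactSpace T] (ι : k →+* K) (κ : K →+* S) (θ₀ : LocallyConstant T k →+* S)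
    (h : ∀ a, θ₀ (const T a) = κ (ι a)) : ∃ θ : LocallyConstant T K →+* S,
      (∀ b, θ (const T b) = κ b) ∧ ∀ f, θ (lcm T ι f) = θ₀ f := by
  letI := ι.toAlgebra
  letI := (κ.comp ι).toAlgebra
  let e : K ⊗[k] LocallyConstant T k →ₐ[k] LocallyConstant T K :=
    Algebra.TensorProduct.productMap (IsScalarTower.toAlgHom k K _) (mapₐ k (Algebra.ofId k K))
  have he : ∀ z, e z = tensorLC k K z := fun z => by
    induction z using TensorProduct.induction_on with
    | zero => simp
    | add a b ha hb => rw [map_add, map_add, ha, hb]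
    | tmul b f => exact LocallyConstant.ext fun t => mul_comm b (ι (f t))
  have hb : Function.Bijective e := by
    rw [show ⇑e = tensorLC k K from funext he]
    exact ⟨tensorLC_injective, tensorLC_surjective⟩
  let l : K ⊗[k] LocallyConstant T k →ₐ[k] S :=
    Algebra.TensorProduct.productMap ⟨κ, fun _ => rfl⟩ ⟨θ₀, h⟩
  let E := AlgEquiv.ofBijective e hb
  refine ⟨(l.comp E.symm.toAlgHom).toRingHom, fun b => ?_, fun f => ?_⟩
  · have : const T b = E (b ⊗ₜ 1) := LocallyConstant.ext fun t => by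
      change b = b * ι 1
      rw [map_one, mul_one]
    change l (E.symm _) = _
    rw [this, E.symm_apply_apply]
    change κ b * θ₀ 1 = _
    rw [map_one, mul_one]
  · have : lcm T ι f = E (1 ⊗ₜ f) := LocallyConstant.ext fun t => (one_mul _).symm
    change l (E.symm _) = _
    rw [this, E.symm_apply_apply]
    change κ 1 * θ₀ f = _
    rw [map_one, one_mul]

end LC

/-! ### the universal automorphism -/

section Aut

variable {n : ℕ} {k K S : Type} [Field k] [CommRing K] [CommRing S] (D : LTD p n k) (ι : k →+* K)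

/-- the coefficient functions -/
noncomputable def cfK (i : ℕ) : LocallyConstant D.GG K := lcm _ ι (cfLC D.H.toFG i)

theorem cfK_apply (i : ℕ) (g : D.GG) : cfK D ι i g = ι (g.cf i) := rfl

theorem cfK_pow (i : ℕ) : cfK D ι i ^ p ^ n = cfK D ι i := by
  have := D.finite
  have := Fintype.ofFinite k
  refine LocallyConstant.ext fun g => ?_
  change ι (g.cf i) ^ p ^ n = ι (g.cf i)
  rw [← map_pow, ← D.card, Nat.card_eq_fintype_card, FiniteField.pow_card]

theorem aut_ext {θ θ' : LocallyConstant D.GG K →+* S}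
    (h1 : ∀ b, θ (const _ b) = θ' (const _ b)) (h2 : ∀ i, θ (cfK D ι (i + 1)) = θ' (cfK D ι (i + 1))) :
    θ = θ' := by
  have := D.finite
  letI := ((θ.comp constRingHom).comp ι).toAlgebra
  refine lc_ext ι h1 fun f => ?_
  refine DFunLike.congr_fun (autRep_ext (θ := ⟨θ.comp (lcm _ ι), fun _ => rfl⟩)
    (θ' := ⟨θ'.comp (lcm _ ι), fun a => (h1 (ι a)).symm⟩) ?_) f
  rintro (_ | i)
  · have : cfLC D.H.toFG 0 = 0 := LocallyConstant.ext fun g => g.cf_zero
    rw [this, map_zero, map_zero]
  · exact h2 i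

variable {D}

theorem aut_ex (hD : IsHz p D) (κ : K →+* S) {g : InvSeries S}
    (hg : g • hzn p n (0 : ℕ → S) = hzn p n 0) : ∃ θ : LocallyConstant D.GG K →+* S,
      (∀ b, θ (const _ b) = κ b) ∧ ∀ i, θ (cfK D ι (i + 1)) = g.c i := by
  have := D.finite
  letI := (κ.comp ι).toAlgebra
  have e : D.H.toFG.map (algebraMap k S) = (hzn p n (0 : ℕ → S)).toFG :=
    congrArg Law.toFG (Un.H_map hD (κ.comp ι))
  obtain ⟨θ₀, h⟩ := exists_autRep (H := D.H.toFG) (B := S) (f := g.val)
    (D.honda.mult.trans (by rw [D.card]))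
    (e ▸ ⟨(InvSeries.smul_eq_iff_isHom _ _ _).1 hg, g.isUnit⟩)
  obtain ⟨θ, h1, h2⟩ := lc_ex ι κ θ₀.toRingHom θ₀.commutes
  exact ⟨θ, h1, fun i => (h2 _).trans (h _)⟩

variable (D) in
/-- the universal automorphism -/
noncomputable def uA : InvSeries (LocallyConstant D.GG K) :=
  InvSeries.ofCoeff (fun i => cfK D ι (i + 1)) (lc_isUnit fun g => g.cf_one_isUnit.map ι)

theorem uA_c (i : ℕ) : (uA D ι).c i = cfK D ι (i + 1) := InvSeries.c_ofCoeff _ _ i

theorem uA_ev (g : D.GG) :
    PowerSeries.map (evalRingHom g) (uA D ι).val = PowerSeries.map ι g.val := by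
  ext (_ | i)
  · simp only [PowerSeries.coeff_map, PowerSeries.coeff_zero_eq_constantCoeff_apply,
      (uA D ι).cc, g.constantCoeff_val, map_zero]
  · rw [PowerSeries.coeff_map, PowerSeries.coeff_map]
    exact congrArg (evalRingHom g) (uA_c ι i)

theorem uA_law (hD : IsHz p D) : uA D ι • hzn p n (0 : ℕ → LocallyConstant D.GG K) = hzn p n 0 := by
  rw [InvSeries.smul_eq_iff_isHom]
  refine isHom_of_pointwise fun g => ?_
  have e : (hzn p n (0 : ℕ → LocallyConstant D.GG K)).toFG.map (evalRingHom g) =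
      D.H.toFG.map ι := by
    rw [← Law.map_toFG, ← Law.map_toFG, Un.H_map hD, hzn_map]
    rfl
  rw [e, uA_ev]
  exact (g.isIso.mapL ι).1

end Aut

/-! ### the universal matrix -/

section Mat

open Matrix

variable {n : ℕ} {k K S S' : Type} [Field k] [CommRing K] [Pf p K] [CommRing S] [Pf p S]
  [CommRing S'] [Pf p S'] {D : LTD p n k}

theorem lw_zero (n : ℕ) : lw p n (0 : ℕ → S) = hzn p n 0 :=
  congrArg (hzn p n) (funext fun i => zero_pow (pow_ne_zero i hp.out.ne_zero))

theorem map_zero_fun (φ : S →+* S') : (fun i => φ ((0 : ℕ → S) i)) = 0 :=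
  funext fun _ => map_zero φ

theorem itw_map0 (φ : S →+* S') {T : Matrix (Fin n) (Fin n) (WittVector p S)}
    (h : Itw (Au p n 0) T (Au p n 0)) : Itw (Au p n 0) (T.map (wm p φ)) (Au p n 0) := by
  have e := Mt.itw_map φ h
  rwa [Au_map, map_zero_fun] at e

theorem cT_map0 (hn : 1 ≤ n) (φ : S →+* S') (T : Matrix (Fin n) (Fin n) (WittVector p S)) :
    cT hn hn 0 (T.map (wm p φ)) = PowerSeries.map φ (cT hn hn 0 T) := by
  rw [← cT_map, map_zero_fun]

theorem LTD_pos (D : LTD p n k) : 1 ≤ n := Nat.one_le_iff_ne_zero.2 D.hh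

variable (hD : IsHz p D) (ι : k →+* K)

include hD in
theorem exists_Tu : ∃ T : Matrix (Fin n) (Fin n) (WittVector p (LocallyConstant D.GG K)),
    Itw (Au p n 0) T (Au p n 0) ∧ cT (LTD_pos D) (LTD_pos D) 0 T = (uA D ι).val :=
  cT_surj _ (by rw [lw_zero]; exact (InvSeries.smul_eq_iff_isHom _ _ _).1 (uA_law ι hD))

/-- the universal automorphism of the module of height `n` -/
noncomputable def Tu : Matrix (Fin n) (Fin n) (WittVector p (LocallyConstant D.GG K)) :=
  (exists_Tu hD ι).choose

theorem Tu_itw : Itw (Au p n 0) (Tu hD ι) (Au p n 0) := (exists_Tu hD ι).choose_spec.1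

theorem Tu_cT : cT (LTD_pos D) (LTD_pos D) 0 (Tu hD ι) = (uA D ι).val :=
  (exists_Tu hD ι).choose_spec.2

theorem Tu_inv : ∃ T', Itw (Au p n 0) T' (Au p n 0) ∧ Tu hD ι * T' = 1 ∧ T' * Tu hD ι = 1 :=
  exists_inv (LTD_pos D) (Tu_itw hD ι) (by
    rw [← cT_lead (u := 0), Tu_cT]; exact (uA D ι).isUnit)

theorem Tu_coeff (θ : LocallyConstant D.GG K →+* S) (i : ℕ) :
    PowerSeries.coeff (i + 1) (cT (LTD_pos D) (LTD_pos D) 0 ((Tu hD ι).map (wm p θ))) =
      θ (cfK D ι (i + 1)) := by
  rw [cT_map0, Tu_cT, PowerSeries.coeff_map]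
  exact congrArg θ (uA_c ι i)

/-- The locally constant functions represent the automorphisms of the module. -/
theorem Tu_rep (κ : K →+* S) {T : Matrix (Fin n) (Fin n) (WittVector p S)}
    (h : Itw (Au p n 0) T (Au p n 0))
    (h1 : IsUnit ((T ⟨0, LTD_pos D⟩ ⟨0, LTD_pos D⟩).coeff 0)) :
    ∃! θ : LocallyConstant D.GG K →+* S,
      (∀ b, θ (const _ b) = κ b) ∧ (Tu hD ι).map (wm p θ) = T := by
  have e := iT_smul (LTD_pos D) h h1
  rw [lw_zero] at e
  obtain ⟨θ, h2, h3⟩ := aut_ex ι hD κ e
  refine ⟨θ, ⟨h2, cT_inj (LTD_pos D) (LTD_pos D) (itw_map0 θ (Tu_itw hD ι)) h ?_⟩,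
    fun θ' h' => aut_ext D ι (fun b => (h'.1 b).trans (h2 b).symm) fun i => ?_⟩
  · ext (_ | i)
    · simp only [PowerSeries.coeff_zero_eq_constantCoeff_apply, cT_cc]
    · exact (Tu_coeff hD ι θ i).trans (h3 i)
  · rw [h3, ← Tu_coeff hD, h'.2]
    rfl

/-- the matrix of an element of the group -/
noncomputable def T0 (g : D.GG) : Matrix (Fin n) (Fin n) (WittVector p K) :=
  (Tu hD ι).map (wm p (evalRingHom g))

theorem T0_itw (g : D.GG) : Itw (Au p n 0) (T0 hD ι g) (Au p n 0) := itw_map0 _ (Tu_itw hD ι)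

theorem T0_cT (g : D.GG) :
    cT (LTD_pos D) (LTD_pos D) 0 (T0 hD ι g) = PowerSeries.map ι g.val := by
  rw [T0, cT_map0, Tu_cT, uA_ev]

theorem T0_one : T0 hD ι 1 = 1 :=
  cT_inj (LTD_pos D) (LTD_pos D) (T0_itw hD ι 1) (Mt.itw_one _) (by
    rw [T0_cT, cT_one, AutF.val_one, PowerSeries.map_X])

theorem T0_mul (g g' : D.GG) : T0 hD ι (g * g') = T0 hD ι g * T0 hD ι g' :=
  cT_inj (LTD_pos D) (LTD_pos D) (T0_itw hD ι _) (Mt.itw_mul (T0_itw hD ι g) (T0_itw hD ι g')) (by
    rw [cT_mul _ (LTD_pos D) _ (T0_itw hD ι g), T0_cT, T0_cT, T0_cT, AutF.val_mul]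
    exact PowerSeries.map_subst g'.hasSubst _)

end Mat

/-! ### continuous families of power series -/

section Fam

open MvPowerSeries Ev

variable {h c : ℕ} {T : Type} [TopologicalSpace T] {K S : Type} [Field K] [CommRing S]

/-- continuous functions with values in the base ring -/
abbrev CR (c : ℕ) (T : Type) [TopologicalSpace T] (K : Type) : Type :=
  MvPowerSeries (Fin c) (LocallyConstant T K)

/-- evaluation at a point -/
noncomputable def evp (t : T) : CR c T K →+* RR c K := map (evalRingHom t)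

variable (T) in
/-- constant functions -/
noncomputable def cst : RR c K →+* CR c T K := map constRingHom

theorem evp_ext {a b : CR c T K} (e : ∀ t, evp t a = evp t b) : a = b := lc_map_injective e

theorem evp_cst (t : T) (r : RR c K) : evp t (cst T r) = r := MvPowerSeries.ext fun _ => rfl

theorem evp_X (t : T) (j : Fin c) : evp t (X j : CR c T K) = X j := map_X _ j

theorem evp_C (t : T) (f : LocallyConstant T K) : evp t (C f : CR c T K) = C (f t) := map_C _ f

theorem cst_X (j : Fin c) : cst T (X j : RR c K) = X j := map_X _ j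

theorem cst_C (a : K) : cst T (C a : RR c K) = C (const T a) := map_C _ a

/-- the element given by a continuous function -/
def fam (f : T → RR c K) (hf : ∀ d, IsLocallyConstant fun t => coeff d (f t)) : CR c T K :=
  fun d => ⟨_, hf d⟩

theorem evp_fam (f : T → RR c K) (hf : ∀ d, IsLocallyConstant fun t => coeff d (f t)) (t : T) :
    evp t (fam f hf) = f t := MvPowerSeries.ext fun _ => rfl

theorem cc_evp (t : T) (a : CR c T K) : constantCoeff (evp t a) = constantCoeff a t := rfl

theorem law_evp {F G : Law (CR c T K)} (e : ∀ t, F.map (evp t) = G.map (evp t)) : F = G :=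
  Law.ext_ps (MvPowerSeries.ext fun d => evp_ext fun t =>
    congrArg (fun H : Law (RR c K) => coeff d H.ps) (e t))

variable {G : Type} [Group G] [TopologicalSpace G] (A : RG p h c G K) (π : C(T, G))

/-- the coaction -/
noncomputable def RG.co : RR c K →+* CR c T K where
  toFun r := fam (fun t => A.phi (π t) r) fun d => (A.cont_phi r d).comp_continuous π.2
  map_one' := evp_ext fun t => by rw [evp_fam, map_one, map_one]
  map_mul' a b := evp_ext fun t => by rw [map_mul, evp_fam, evp_fam, evp_fam, map_mul]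
  map_zero' := evp_ext fun t => by rw [evp_fam, map_zero, map_zero]
  map_add' a b := evp_ext fun t => by rw [map_add, evp_fam, evp_fam, evp_fam, map_add]

theorem RG.evp_co (t : T) (r : RR c K) : evp t (A.co π r) = A.phi (π t) r := evp_fam _ _ t

theorem RG.co_C (a : K) : A.co π (C a) = C (const T a) :=
  evp_ext fun t => by rw [A.evp_co, Un.phi_C, evp_C]; rfl

theorem RG.cc_co (j : Fin c) : constantCoeff (A.co π (X j)) = 0 :=
  LocallyConstant.ext fun t => by rw [← cc_evp, A.evp_co, A.phi_X]; rfl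

/-- the universal series -/
noncomputable def RG.us : InvSeries (CR c T K) :=
  InvSeries.ofCoeff (fun i => fam (fun t => (A.ser (π t)).c i) fun d =>
    (A.cont_ser i d).comp_continuous π.2)
    (isUnit_iff_constantCoeff.2 (lc_isUnit fun t => by
      rw [← cc_evp, evp_fam]
      exact (A.ser (π t)).isUnit.map _))

theorem RG.evp_us (t : T) : InvSeries.map (evp t) (A.us π) = A.ser (π t) :=
  InvSeries.ext_c fun i => by rw [InvSeries.c_map, RG.us, InvSeries.c_ofCoeff, evp_fam]

theorem RG.us_law : A.us π • Fx p h (fun j => A.co π (X j)) = Fx p h X := by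
  refine law_evp fun t => ?_
  rw [InvSeries.map_smul, A.evp_us, Fx_map, Fx_map]
  simp only [A.evp_co, evp_X]
  have := A.law (π t)
  rwa [FR, Fx_map] at this

theorem map_mem {L : Type} [CommRing L] {J : Ideal S} (β : MvPowerSeries (Fin c) L →+* S)
    (hβ : ∀ j, β (X j) ∈ J) {f : MvPowerSeries (Fin c) L} (hf : constantCoeff f = 0) : β f ∈ J := by
  simpa using Ev.map_mem_pow β hβ (n := 1) (by simpa using Ev.mem_IX.2 hf)

variable {n : ℕ} {k : Type} [Field k] {D : LTD p n k} {ι : k →+* K} {A : RG p h c D.GG K}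

theorem IsT.cc_us (hA : IsT D ι A) (π : C(T, D.GG)) (i : ℕ) :
    constantCoeff ((A.us π).c i) = (cfK D ι (i + 1)).comap π :=
  LocallyConstant.ext fun t => by
    rw [← cc_evp, ← InvSeries.c_map, A.evp_us, hA]; rfl

/-- **uniqueness in families** -/
theorem IsT.fam_uniq (hA : IsT D ι A) (h1 : 1 ≤ h) (hn : h + c = n) (π : C(T, D.GG))
    (J : Ideal S) [IsHausdorff J S] (β : CR c T K →+* S) (hβ : ∀ j, β (X j) ∈ J) {y : Fin c → S}
    (hy : ∀ j, y j ∈ J) {g : InvSeries S} (e : g • Fx p h y = Fx p h fun j => β (X j))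
    (hg : ∀ i, g.c i - β (C ((cfK D ι (i + 1)).comap π)) ∈ J.radical) :
    (∀ j, y j = β (A.co π (X j))) ∧ g = InvSeries.map β (A.us π) := by
  have e' := congrArg (Law.map β) (A.us_law π)
  rw [InvSeries.map_smul, Fx_map, Fx_map] at e'
  obtain ⟨a, b⟩ := (All.unic p).fx h1 (hn ▸ D.card) J
    ((β.comp ((C (σ := Fin c)).comp constRingHom)).comp ι) hy
    (fun j => map_mem β hβ (A.cc_co π j)) (e.trans e'.symm) fun i => by
      have := Ideal.sub_mem _ (hg i) (Ideal.le_radical (map_mem β hβ
        (f := (A.us π).c i - C ((cfK D ι (i + 1)).comap π)) (by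
          rw [map_sub, hA.cc_us, constantCoeff_C, sub_self])))
      rwa [map_sub, sub_sub_sub_cancel_right, ← InvSeries.c_map] at this
  exact ⟨congrFun a, b⟩

end Fam

end Vale.Agent.P261Z.N
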