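import Vale.Agent.P261Z.N.Cv
import Vale.Agent.P261Z.W.Pf
import Vale.Agent.P251.F.LTFinal

/-! P261, blocks N1 and N2: definitions and statements. -/

set_option linter.all false

namespace Vale.Agent.P261Z.N

open Vale.Agent.P217 Vale.Agent.P251.F Vale.Agent.P257.H80 _root_.P261 WittVector

variable (p : ℕ) [hp : Fact p.Prime]

section Defs

variable {S : Type} [CommRing S] [Pf p S] {M : Type} [AddCommGroup M] [Module (WittVector p S) M]

/-- the right side `V^n y + ∑ [u i] V^i y` of the normal form -/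
noncomputable def nfr (n : ℕ) (u : ℕ → S) (V : M →+ M) (y : M) : M :=
  V^[n] y + ∑ i ∈ Finset.Ico 1 n, teichmuller p (u i) • V^[i] y

/-- `m` is a cyclic vector in normal form -/
structure NF (n : ℕ) (u : ℕ → S) (V : M →+ M) (m : M) : Prop where
  pos : 1 ≤ n
  semi : ∀ (w : WittVector p S) (y : M), V (w • y) = WittVector.map (rt p S) w • V y
  li : LinearIndependent (WittVector p S) fun i : Fin n => V^[i] m
  sp : ⊤ ≤ Submodule.span (WittVector p S) (Set.range fun i : Fin n => V^[i] m)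
  rel : p • m = nfr p n u V m

/-- the basis `m, V m, …` -/
noncomputable def NF.bas {n : ℕ} {u : ℕ → S} {V : M →+ M} {m : M} (h : NF p n u V m) :
    Module.Basis (Fin n) (WittVector p S) M := Module.Basis.mk h.li h.sp

/-- the law of the normal form with parameters `u` -/
noncomputable def lw (n : ℕ) (u : ℕ → S) : Law S := hzn p n fun i => u i ^ p ^ i

/-- maps to curves which are compatible with the operators -/
structure IsCrv (F : Law S) (V : M →+ M) (c : M →+ Cv F) : Prop where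
  tei : ∀ (a : S) (y : M), c (teichmuller p a • y) = mon p F a 0 (c y)
  ver : ∀ y : M, c (V y) = mon p F 1 1 (c y)

end Defs

/-- typical curves -/
def Typ {S : Type} [CommRing S] (F : Law S) (g : Cv F) : Prop :=
  ∀ (T : Type) [CommRing T] [Pf p T] (φ : S →+* T),
    ∃ c : WittVector p T →+ Cv (F.map φ), ∀ a, c (teichmuller p a) = mon p _ a 0 (zmap φ rfl g)

/-! ### N1 -/

/-- the `p`-series -/
def PSER : Prop := ∀ (S : Type) [CommRing S], (p : S) = 0 → ∀ (v : ℕ → S) (N : ℕ),
  (∀ i, N ≤ i → v i = 0) →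
    p • xx (hz p v) = ∑ i ∈ Finset.range N, mon p (hz p v) (v i) (i + 1) (xx _)

/-- the addition of the curves `a x` is the addition of Witt vectors -/
def CART : Prop := ∀ (S : Type) [CommRing S] [Pf p S] (v : ℕ → S),
  ∃ c : WittVector p S →+ Cv (hz p v), ∀ a, c (teichmuller p a) = mon p _ a 0 (xx _)

/-- additive maps to curves are determined by their values at the representatives -/
def UNIQ : Prop := ∀ (S T : Type) [CommRing S] [Pf p S] [CommRing T], (p : T) = 0 →
  ∀ (F : Law T) (c c' : WittVector p S →+ Cv F),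
    (∀ a, c (teichmuller p a) = c' (teichmuller p a)) → c = c'

/-- typical curves with the `p`-series relation are homomorphisms -/
def HOM0 : Prop := ∀ (S : Type) [CommRing S] [Pf p S] (F : Law S) (v : ℕ → S) (N : ℕ),
  (∀ i, N ≤ i → v i = 0) → ∀ g : Cv F, Typ p F g →
    p • g = ∑ i ∈ Finset.range N, mon p F (v i) (i + 1) g → IsHom (hz p v).toFG F.toFG g.ser

/-- existence of the curve map -/
def CRV : Prop := ∀ (S : Type) [CommRing S] [Pf p S] (M : Type) [AddCommGroup M]
  [Module (WittVector p S) M] (n : ℕ) (u : ℕ → S) (V : M →+ M) (m : M), NF p n u V m →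
    ∃ c : M →+ Cv (lw p n u), IsCrv p _ V c ∧ c m = xx _ ∧ ∀ y, Typ p _ (c y)

/-- uniqueness and naturality of the curve map -/
def CUN : Prop := ∀ (S : Type) [CommRing S] [Pf p S] (M : Type) [AddCommGroup M]
  [Module (WittVector p S) M] (n : ℕ) (V : M →+ M) (m : M),
  ⊤ ≤ Submodule.span (WittVector p S) (Set.range fun i : Fin n => V^[i] m) →
  ∀ (T : Type) [CommRing T], (p : T) = 0 → ∀ (φ : S →+* T) (G : Law T) (c c' : M →+ Cv G),
    (∀ a y, c (teichmuller p a • y) = mon p G (φ a) 0 (c y)) →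
    (∀ a y, c' (teichmuller p a • y) = mon p G (φ a) 0 (c' y)) →
    (∀ y, c (V y) = mon p G 1 1 (c y)) → (∀ y, c' (V y) = mon p G 1 1 (c' y)) →
    c m = c' m → c = c'

/-- the linear coefficient of a curve -/
def LEAD : Prop := ∀ (S : Type) [CommRing S] [Pf p S] (M : Type) [AddCommGroup M]
  [Module (WittVector p S) M] (n : ℕ) (u : ℕ → S) (V : M →+ M) (m : M) (h : NF p n u V m)
  (F : Law S) (c : M →+ Cv F), IsCrv p F V c → c m = xx F → ∀ y,
    PowerSeries.coeff 1 (c y).ser = (h.bas.repr y ⟨0, h.pos⟩).coeff 0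

/-- vectors in normal form give homomorphisms -/
def HOM : Prop := ∀ (S : Type) [CommRing S] [Pf p S] (M : Type) [AddCommGroup M]
  [Module (WittVector p S) M] (n : ℕ) (u : ℕ → S) (V : M →+ M) (m : M), NF p n u V m →
  ∀ c : M →+ Cv (lw p n u), IsCrv p _ V c → c m = xx _ →
  ∀ (n' : ℕ) (u' : ℕ → S) (y : M), 1 ≤ n' → c (p • y) = c (nfr p n' u' V y) →
    IsHom (lw p n' u').toFG (lw p n u).toFG (c y).ser

/-- endomorphisms in height `n` -/
def END : Prop := ∀ (S : Type) [CommRing S] [Pf p S] (M : Type) [AddCommGroup M]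
  [Module (WittVector p S) M] (n : ℕ) (V : M →+ M) (m : M), NF p n (0 : ℕ → S) V m →
  ∀ c : M →+ Cv (lw p n (0 : ℕ → S)), IsCrv p _ V c → c m = xx _ →
    Function.Injective c ∧ ∀ g, IsHom (lw p n (0 : ℕ → S)).toFG (lw p n (0 : ℕ → S)).toFG g →
      ∃ y, p • y = V^[n] y ∧ (c y).ser = g

/-! ### N2 -/

/-- a family indexed by `1, …, n - 1` -/
def ext1 {A : Type} [Zero A] {r : ℕ} (x : Fin r → A) (i : ℕ) : A :=
  if h : i - 1 < r then x ⟨i - 1, h⟩ else 0

/-- The deformation is the law of Hazewinkel. -/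
def IsHz {n : ℕ} {k : Type} [Field k] (D : LTD p n k) : Prop :=
  D.FU = hzn p n (ext1 (MvPolynomial.X : Fin (n - 1) → MvPolynomial (Fin (n - 1)) k))

/-- existence -/
def EXD : Prop := ∀ (n : ℕ) (k : Type) [Field k], n ≠ 0 → Nat.card k = p ^ n →
  ∃ D : LTD p n k, IsHz p D

variable {p}

/-- the action on `E_j` -/
noncomputable def phi {n : ℕ} {k : Type} [Field k] (D : LTD p n k) (j : ℕ) (γ : D.GG) :
    D.EJ j →+* D.EJ j := (D.coPt j).phi (D.sm j γ)

/-- the isomorphism `phi γ F → F` -/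
noncomputable def ser {n : ℕ} {k : Type} [Field k] (D : LTD p n k) (j : ℕ) (γ : D.GG) :
    InvSeries (D.EJ j) := (D.coPt j).ser (D.sm j γ)

variable (p)

/-- uniqueness of deformations -/
def LTU : Prop := ∀ (n : ℕ) (k : Type) [Field k] (D : LTD p n k) (j : ℕ) (C : Type) [CommRing C]
  (J : Ideal C), IsNilpotent J → ∀ (x x' : D.EJ j →+* C) (g g' : InvSeries C),
    (∀ a : k, x (algebraMap k _ a) = x' (algebraMap k _ a)) →
    g • (D.FE j).map x = g' • (D.FE j).map x' → (∀ e, x e - x' e ∈ J) →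
    (∀ i, g.c i - g'.c i ∈ J) → x = x' ∧ g = g'

/-- the universal element of the group -/
def COACT : Prop := ∀ (n : ℕ) (k : Type) [Field k] (D : LTD p n k) (j : ℕ),
  ∃ (co : D.EJ j →+* LocallyConstant D.GG (D.EJ j))
    (s : InvSeries (LocallyConstant D.GG (D.EJ j))),
    (∀ e γ, co e γ = phi D j γ e) ∧ (∀ i γ, s.c i γ = (ser D j γ).c i) ∧
    s • (D.FE j).map co = (D.FE j).map (algebraMap _ _)

/-- elementary properties of the action -/
def ACT0 : Prop := ∀ (n : ℕ) (k : Type) [Field k] (D : LTD p n k) (j : ℕ) (γ : D.GG),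
  ser D j γ • (D.FE j).map (phi D j γ) = D.FE j ∧
  (∀ a : k, phi D j γ (algebraMap k _ a) = algebraMap k _ a) ∧
  (∀ e, EE.π k (n - 1) j (phi D j γ e) = EE.π k (n - 1) j e) ∧
  ∀ i, EE.π k (n - 1) j ((ser D j γ).c i) = γ.cf (i + 1)

/-- an isomorphism of deformations is given by the action -/
def ACT : Prop := ∀ (n : ℕ) (k : Type) [Field k] (D : LTD p n k) (j : ℕ)
  (co : D.EJ j →+* LocallyConstant D.GG (D.EJ j))
  (s : InvSeries (LocallyConstant D.GG (D.EJ j))),
  (∀ e γ, co e γ = phi D j γ e) → (∀ i γ, s.c i γ = (ser D j γ).c i) →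
  ∀ (C : Type) [CommRing C] (J : Ideal C), IsNilpotent J →
  ∀ (β : LocallyConstant D.GG (D.EJ j) →+* C) (x' : D.EJ j →+* C) (g' : InvSeries C),
    (∀ a : k, x' (algebraMap k _ a) = β (algebraMap _ _ (algebraMap k (D.EJ j) a))) →
    g' • (D.FE j).map x' = (D.FE j).map (β.comp (algebraMap _ _)) →
    (∀ e ∈ EE.m k (n - 1) j, x' e ∈ J) → (∀ e ∈ EE.m k (n - 1) j, β (algebraMap _ _ e) ∈ J) →
    (∀ i, g'.c i - β ((cfLC D.H.toFG (i + 1)).map (algebraMap k (D.EJ j))) ∈ J) →
    x' = β.comp co ∧ g' = InvSeries.map β s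

end Vale.Agent.P261Z.N
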